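import Vale.Agent.P366.H896.N.X5c

/-! The divergences of the energy and momentum flux fields. -/

open MeasureTheory Metric Filter Topology Set
open scoped ContDiff ENNReal

noncomputable section
namespace Vale.Agent.P366.KSN

open Vale.Agent.P366 (pd E)
open Vale.Agent.P366.H353.N

variable {n : ℕ}

namespace X5

/-- `f` is differentiable at `y` with the partial derivative `d`. -/
def DP (k : Fin n) (f : E n → ℝ) (d : ℝ) (y : E n) : Prop :=
  DifferentiableAt ℝ f y ∧ pd k f y = d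

section DP
variable {k : Fin n} {f h : E n → ℝ} {d d' : ℝ} {y : E n}

lemma DP.of (hf : DifferentiableAt ℝ f y) : DP k f (pd k f y) y := ⟨hf, rfl⟩
lemma DP.const (c : ℝ) : DP k (fun _ => c) 0 y :=
  ⟨differentiableAt_const c, Vale.Agent.P366.pd_const _ _ _⟩
lemma DP.add (hf : DP k f d y) (hh : DP k h d' y) : DP k (fun z => f z + h z) (d + d') y :=
  ⟨hf.1.add hh.1, by rw [Vale.Agent.P366.pd_add hf.1 hh.1, hf.2, hh.2]⟩
lemma DP.sub (hf : DP k f d y) (hh : DP k h d' y) : DP k (fun z => f z - h z) (d - d') y :=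
  ⟨hf.1.sub hh.1, by rw [Vale.Agent.P366.pd_sub hf.1 hh.1, hf.2, hh.2]⟩
lemma DP.mul (hf : DP k f d y) (hh : DP k h d' y) :
    DP k (fun z => f z * h z) (d * h y + f y * d') y :=
  ⟨hf.1.mul hh.1, by rw [Vale.Agent.P366.pd_mul hf.1 hh.1, hf.2, hh.2]; ring⟩
lemma DP.cmul (c : ℝ) (hf : DP k f d y) : DP k (fun z => c * f z) (c * d) y := by
  have := (DP.const (k := k) (y := y) c).mul hf
  simpa using this
lemma DP.sum {ι : Type*} (s : Finset ι) {f : ι → E n → ℝ} {d : ι → ℝ}
    (hf : ∀ a, DP k (f a) (d a) y) : DP k (fun z => ∑ a ∈ s, f a z) (∑ a ∈ s, d a) y :=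
  ⟨DifferentiableAt.fun_sum fun a _ => (hf a).1, by
    rw [Vale.Agent.P366.pd_sum s (fun a _ => (hf a).1)]
    exact Finset.sum_congr rfl fun a _ => (hf a).2⟩
end DP

variable {lam v vt : E n → ℝ} {R : ℝ}

lemma Far.nhds (_hF : Far lam v vt R) {y : E n} (hy : R < ‖y‖) : ∀ᶠ z in 𝓝 y, R < ‖z‖ :=
  (isOpen_lt continuous_const continuous_norm).mem_nhds hy

lemma Far.grad (hF : Far lam v vt R) {y : E n} (hy : R < ‖y‖) :
    ∀ᶠ z in 𝓝 y, ∑ i, pd i lam z ^ 2 = 1 := (hF.nhds hy).mono fun z hz => hF.gr z hz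

lemma cdd {F : E n → ℝ} {y : E n} (hF : ContDiffAt ℝ ∞ F y) : DifferentiableAt ℝ F y :=
  hF.differentiableAt (by simp)

lemma cd_hs {F : E n → ℝ} {y : E n} (hF : ContDiffAt ℝ ∞ F y) (i j : Fin n) :
    ContDiffAt ℝ ∞ (hs F i j) y := cd_pd (cd_pd hF j) i

lemma Far.eik (hF : Far lam v vt R) {y : E n} (hy : R < ‖y‖) (j : Fin n) :
    ∑ i, pd i lam y * hs lam i j y = 0 := X5.eik (hF.sl y hy) (hF.grad hy) j

lemma hs_symm' {F : E n → ℝ} {y : E n} (hF : ContDiffAt ℝ ∞ F y) (i j : Fin n) :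
    hs F i j y = hs F j i y := pd_comm' hF i j

lemma Far.T12 (hF : Far lam v vt R) {y : E n} (hy : R < ‖y‖) (i j k : Fin n) :
    pd i (hs lam j k) y = pd j (hs lam i k) y := pd_comm' (cd_pd (hF.sl y hy) k) i j

lemma Far.T23 (hF : Far lam v vt R) {y : E n} (hy : R < ‖y‖) (i j k : Fin n) :
    pd i (hs lam j k) y = pd i (hs lam k j) y :=
  Vale.Agent.P366.pd_congr ((hF.nhds hy).mono fun z hz => hs_symm' (hF.sl z hz) j k) i

lemma Far.eik2 (hF : Far lam v vt R) {y : E n} (hy : R < ‖y‖) (j k : Fin n) :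
    ∑ i, pd i lam y * pd i (hs lam j k) y = - ∑ i, hs lam i j y * hs lam i k y := by
  have h1 : DP j (fun z => ∑ i, pd i lam z * hs lam i k z)
      (∑ i, (pd j (pd i lam) y * hs lam i k y + pd i lam y * pd j (hs lam i k) y)) y :=
    DP.sum _ fun i => (DP.of (cdd (cd_pd (hF.sl y hy) i))).mul
      (DP.of (cdd (cd_hs (hF.sl y hy) i k)))
  have h2 : pd j (fun z => ∑ i, pd i lam z * hs lam i k z) y = 0 := by
    have : (fun z => ∑ i, pd i lam z * hs lam i k z) =ᶠ[𝓝 y] fun _ => 0 :=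
      (hF.nhds hy).mono fun z hz => hF.eik hz k
    rw [Vale.Agent.P366.pd_congr this j, Vale.Agent.P366.pd_const]
  rw [h1.2] at h2
  simp only [Finset.sum_add_distrib] at h2
  have h3 : ∑ i, pd i lam y * pd i (hs lam j k) y = ∑ i, pd i lam y * pd j (hs lam i k) y :=
    Finset.sum_congr rfl fun i _ => by rw [hF.T12 hy i j k]
  have h4 : ∑ i, pd j (pd i lam) y * hs lam i k y = ∑ i, hs lam i j y * hs lam i k y :=
    Finset.sum_congr rfl fun i _ => by rw [hs_symm' (hF.sl y hy) i j]; rfl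
  linarith

/-- `n · ∇θ = - |D²λ|²` -/
lemma Far.dth (hF : Far lam v vt R) {y : E n} (hy : R < ‖y‖) :
    ∑ i, pd i lam y * pd i (lap lam) y = - ∑ i, ∑ j, hs lam i j y ^ 2 := by
  have h1 : ∀ i, pd i (lap lam) y = ∑ k, pd i (hs lam k k) y := fun i =>
    (DP.sum Finset.univ fun k => DP.of (k := i) (cdd (cd_hs (hF.sl y hy) k k))).2
  simp only [h1, Finset.mul_sum]
  rw [Finset.sum_comm]
  simp only [hF.eik2 hy, Finset.sum_neg_distrib]
  rw [Finset.sum_comm]
  exact congrArg Neg.neg (Finset.sum_congr rfl fun i _ => Finset.sum_congr rfl fun j _ => by ring)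

lemma Far.dp_dn (hF : Far lam v vt R) {y : E n} (hy : R < ‖y‖) (i : Fin n) :
    DP i (dn lam v) (∑ k, (hs lam i k y * pd k v y + pd k lam y * hs v i k y)) y :=
  DP.sum _ fun k => (DP.of (cdd (cd_pd (hF.sl y hy) k))).mul (DP.of (cdd (cd_pd (hF.sv y hy) k)))

lemma Far.cd_lap (hF : Far lam v vt R) {y : E n} (hy : R < ‖y‖) :
    ContDiffAt ℝ ∞ (lap lam) y := ContDiffAt.sum fun i _ => cd_hs (hF.sl y hy) i i

theorem Fe_n (hF : Far lam v vt R) {y : E n} (hy : R < ‖y‖) :
    ∑ i, Fe lam v i y * pd i lam y = v y * lap lam y / 2 := by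
  have e1 : ∀ i, Fe lam v i y * pd i lam y =
      (dn lam v y + v y * lap lam y) / 2 * pd i lam y ^ 2 - (pd i lam y * pd i v y) / 2 := by
    intro i; unfold Fe; ring
  simp only [e1, Finset.sum_sub_distrib, ← Finset.mul_sum, ← Finset.sum_div, hF.gr y hy]
  unfold dn
  ring

theorem div_Fe (hF : Far lam v vt R) {y : E n} (hy : R < ‖y‖) :
    ∑ i, pd i (Fe lam v i) y = (ea lam v vt y + eb lam v vt y) / 2 := by
  have h1 : ∀ i, pd i (Fe lam v i) y = (1 / 2) *
      (((∑ k, (hs lam i k y * pd k v y + pd k lam y * hs v i k y)) +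
        (pd i v y * lap lam y + v y * pd i (lap lam) y)) * pd i lam y +
        (dn lam v y + v y * lap lam y) * pd i (pd i lam) y - pd i (pd i v) y) := by
    intro i
    have h2 : DP i (fun z => (1 / 2) * ((dn lam v z + v z * lap lam z) * pd i lam z - pd i v z)) _ y :=
      DP.cmul _ ((((hF.dp_dn hy i).add ((DP.of (cdd (hF.sv y hy))).mul
        (DP.of (cdd (hF.cd_lap hy))))).mul (DP.of (cdd (cd_pd (hF.sl y hy) i)))).sub
        (DP.of (cdd (cd_pd (hF.sv y hy) i))))
    have h3 : Fe lam v i = fun z => (1 / 2) * ((dn lam v z + v z * lap lam z) * pd i lam z -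
        pd i v z) := by funext z; unfold Fe; ring
    rw [h3, h2.2]
  have e1 : ∀ i, pd i (Fe lam v i) y =
      (∑ k, pd k v y * (pd i lam y * hs lam i k y)) / 2 +
      (∑ k, pd i lam y * pd k lam y * hs v i k y) / 2 +
      (lap lam y / 2) * (pd i lam y * pd i v y) + (v y / 2) * (pd i lam y * pd i (lap lam) y) +
      ((dn lam v y + v y * lap lam y) / 2) * hs lam i i y - hs v i i y / 2 := by
    intro i
    rw [h1]
    have e2 : (∑ k, (hs lam i k y * pd k v y + pd k lam y * hs v i k y)) * pd i lam y =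
        (∑ k, pd k v y * (pd i lam y * hs lam i k y)) +
        ∑ k, pd i lam y * pd k lam y * hs v i k y := by
      rw [Finset.sum_mul, ← Finset.sum_add_distrib]
      exact Finset.sum_congr rfl fun k _ => by ring
    have e3 : hs lam i i y = pd i (pd i lam) y := rfl
    have e4 : hs v i i y = pd i (pd i v) y := rfl
    rw [e3, e4]
    linear_combination e2 / 2
  have e5 : ∑ i, ∑ k, pd k v y * (pd i lam y * hs lam i k y) = 0 := by
    rw [Finset.sum_comm]
    simp only [← Finset.mul_sum, hF.eik hy, mul_zero, Finset.sum_const_zero]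
  simp only [e1, Finset.sum_add_distrib, Finset.sum_sub_distrib, ← Finset.mul_sum,
    ← Finset.sum_div, e5, hF.dth hy]
  unfold ea eb dn lap
  ring

theorem div_Pi (hF : Far lam v vt R) {y : E n} (hy : R < ‖y‖) (i : Fin n) :
    ∑ j, pd j (Pi lam v vt i j) y = jj lam v vt i y := by
  have hl := hF.sl y hy
  have hv := hF.sv y hy
  have ht := hF.st y hy
  have h1 : ∀ j, pd j (Pi lam v vt i j) y =
      (-1 / 2) * ((hs v j i y * pd j lam y + pd i v y * hs lam j j y) +
        (hs v j j y * pd i lam y + pd j v y * hs lam j i y)) -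
      (pd j v y * hs lam i j y + v y * pd j (hs lam i j) y) +
      (1 / 2) * ((pd j vt y * pd i lam y + vt y * hs lam j i y) * pd j lam y +
        vt y * pd i lam y * hs lam j j y) +
      (((∑ k, (hs lam j k y * pd k v y + pd k lam y * hs v j k y)) +
        (pd j v y * lap lam y + v y * pd j (lap lam) y)) - (1 / 2) * pd j vt y) * kd i j := by
    intro j
    have h2 : DP j (fun z => (-1 / 2) * (pd i v z * pd j lam z + pd j v z * pd i lam z) -
        v z * hs lam i j z + (1 / 2) * (vt z * pd i lam z * pd j lam z) +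
        (dn lam v z + v z * lap lam z - (1 / 2) * vt z) * kd i j) _ y :=
      (((DP.cmul _ (((DP.of (cdd (cd_pd hv i))).mul (DP.of (cdd (cd_pd hl j)))).add
        ((DP.of (cdd (cd_pd hv j))).mul (DP.of (cdd (cd_pd hl i)))))).sub
        ((DP.of (cdd hv)).mul (DP.of (cdd (cd_hs hl i j))))).add
        (DP.cmul _ (((DP.of (cdd ht)).mul (DP.of (cdd (cd_pd hl i)))).mul
          (DP.of (cdd (cd_pd hl j)))))).add
        ((((hF.dp_dn hy j).add ((DP.of (cdd hv)).mul (DP.of (cdd (hF.cd_lap hy))))).sub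
          (DP.cmul _ (DP.of (cdd ht)))).mul (DP.const _))
    have h3 : Pi lam v vt i j = fun z => (-1 / 2) * (pd i v z * pd j lam z + pd j v z * pd i lam z) -
        v z * hs lam i j z + (1 / 2) * (vt z * pd i lam z * pd j lam z) +
        (dn lam v z + v z * lap lam z - (1 / 2) * vt z) * kd i j := by
      funext z; unfold Pi; ring
    rw [h3, h2.2]
    unfold H353.N.hs
    ring
  have hkd : ∀ F : Fin n → ℝ, ∑ j, F j * kd i j = F i := by
    intro F
    unfold kd
    simp
  have e1 : ∀ j, pd j (Pi lam v vt i j) y =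
      (-1 / 2) * (hs v i j y * pd j lam y) + (-1 / 2 * pd i v y) * hs lam j j y +
      (-1 / 2 * pd i lam y) * hs v j j y - (3 / 2) * (pd j v y * hs lam i j y) -
      v y * pd i (hs lam j j) y + (1 / 2 * pd i lam y) * (pd j lam y * pd j vt y) +
      (1 / 2 * vt y) * (pd j lam y * hs lam j i y) +
      (1 / 2 * vt y * pd i lam y) * hs lam j j y +
      (((∑ k, (hs lam j k y * pd k v y + pd k lam y * hs v j k y)) +
        (pd j v y * lap lam y + v y * pd j (lap lam) y)) - (1 / 2) * pd j vt y) * kd i j := by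
    intro j
    rw [h1, hs_symm' hv j i, hs_symm' hl j i, hF.T12 hy j i j]
    ring
  simp only [e1, Finset.sum_add_distrib, Finset.sum_sub_distrib, ← Finset.mul_sum, hkd,
    hF.eik hy]
  have h2 : pd i (lap lam) y = ∑ k, pd i (hs lam k k) y :=
    (DP.sum Finset.univ fun k => DP.of (k := i) (cdd (cd_hs hl k k))).2
  have h3 : ∑ k, pd k v y * hs lam i k y = ∑ k, hs lam i k y * pd k v y :=
    Finset.sum_congr rfl fun k _ => mul_comm _ _
  have h4 : ∑ k, pd k lam y * hs v i k y = ∑ k, hs v i k y * pd k lam y :=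
    Finset.sum_congr rfl fun k _ => mul_comm _ _
  unfold jj dn
  rw [h2, h4, h3]
  unfold lap
  ring

end X5

end Vale.Agent.P366.KSN
end
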