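import Vale.Agent.P366.H896.N.X1a

/-! The Kerr-Schild metric `ksG lam V` of `Kerr/Defs` in every dimension: the consequences of the
dominant energy condition. -/

open MeasureTheory Metric Filter Topology Set
open scoped ContDiff ENNReal

noncomputable section
namespace Vale.Agent.P366.KSN

open Vale.Agent.P366 (pd E)
open Vale.Agent.P366.H353.N
open Vale.Agent.P366.H896
open Vale.Agent.P366.Kerr (NullCone IsSlice Region Psi pt sp nul ksG indG indK DECat
  FutureTimelike)

variable {n : ℕ}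

namespace X1

section General

/-- the bilinear form with the matrix `g` -/
def Bf (g : Fin n → Fin n → ℝ) (X Y : Fin n → ℝ) : ℝ := ∑ i, ∑ j, g i j * X i * Y j

lemma Bf_lin (g : Fin n → Fin n → ℝ) (X Y X' Y' : Fin n → ℝ) (c : ℝ) :
    Bf g (fun i => X i + c * Y i) (fun j => X' j + c * Y' j) =
      Bf g X X' + c * (Bf g X Y' + Bf g Y X') + c ^ 2 * Bf g Y Y' := by
  unfold Bf
  simp only [Finset.mul_sum, ← Finset.sum_add_distrib]
  exact Finset.sum_congr rfl fun i _ => Finset.sum_congr rfl fun j _ => by ring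

lemma lin_lin (w : Fin n → ℝ) (X Y : Fin n → ℝ) (c : ℝ) :
    ∑ i, w i * (X i + c * Y i) = ∑ i, w i * X i + c * ∑ i, w i * Y i := by
  simp only [Finset.mul_sum, ← Finset.sum_add_distrib]
  exact Finset.sum_congr rfl fun i _ => by ring

lemma lim_nonneg {a b c : ℝ} (h : ∀ t : ℝ, 0 < t → 0 ≤ a + t * b + t ^ 2 * c) : 0 ≤ a := by
  have h1 : Tendsto (fun t : ℝ => a + t * b + t ^ 2 * c) (𝓝[>] 0) (𝓝 (a + 0 * b + 0 ^ 2 * c)) := by
    have : Continuous fun t : ℝ => a + t * b + t ^ 2 * c := by fun_prop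
    exact (this.tendsto 0).mono_left nhdsWithin_le_nhds
  have h2 : 0 ≤ a + 0 * b + 0 ^ 2 * c :=
    ge_of_tendsto h1 (eventually_mem_nhdsWithin.mono fun t ht => h t ht)
  simpa using h2

/-- The dominant energy condition on null vectors. -/
lemma dec_null {g : Stmt.Field n} {w : Stmt.E n → ℝ} {x : Stmt.E n} (h : DECat g w x)
    {K l : Fin n → ℝ} (hKK : Bf (g x) K K = 0) (hll : Bf (g x) l l = 0)
    (hKl : Bf (g x) K l = -1) (hlK : Bf (g x) l K = -1) (hwK : ∑ i, Stmt.pd i w x * K i = 0)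
    (hwl : ∑ i, Stmt.pd i w x * l i = 1) :
    0 ≤ Bf (fun i j => Kerr.ein g i j x) K l ∧ 0 ≤ Bf (fun i j => Kerr.ein g i j x) l l := by
  have hX : ∀ t : ℝ, 0 < t → FutureTimelike g w x (fun i => K i + t * l i) := by
    intro t ht
    constructor
    · show Bf (g x) (fun i => K i + t * l i) (fun i => K i + t * l i) < 0
      rw [Bf_lin, hKK, hll, hKl, hlK]; linarith
    · rw [lin_lin, hwK, hwl]; linarith
  have hY : ∀ t : ℝ, 0 < t → FutureTimelike g w x (fun i => l i + t * K i) := by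
    intro t ht
    constructor
    · show Bf (g x) (fun i => l i + t * K i) (fun i => l i + t * K i) < 0
      rw [Bf_lin, hKK, hll, hKl, hlK]; linarith
    · rw [lin_lin, hwK, hwl]; linarith
  constructor
  · refine lim_nonneg (b := Bf (fun i j => Kerr.ein g i j x) K K + Bf (fun i j => Kerr.ein g i j x) l l)
      (c := Bf (fun i j => Kerr.ein g i j x) l K) fun t ht => ?_
    rw [← Bf_lin]
    exact h _ _ (hX t ht) (hY t ht)
  · refine lim_nonneg (b := Bf (fun i j => Kerr.ein g i j x) l K + Bf (fun i j => Kerr.ein g i j x) K l)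
      (c := Bf (fun i j => Kerr.ein g i j x) K K) fun t ht => ?_
    rw [← Bf_lin]
    exact h _ _ (hY t ht) (hY t ht)

lemma ein_eq (g : Stmt.Field n) (i j : Fin n) (x : Stmt.E n) :
    Kerr.ein g i j x = H896.ein g i j x := by
  unfold Kerr.ein H896.ein
  show H896.ric g i j x - _ = H896.ric g i j x - _
  ring

/-- The dominant energy condition for a metric of Kerr-Schild form. -/
theorem dec_ks {e : Fin n → ℝ} {g : Stmt.Field n} {w V : Stmt.E n → ℝ} {U : Set (Stmt.E n)}
    (hT : KSg e g w V U) {x : Stmt.E n} (hx : x ∈ U) (h : DECat g w x) {l : Fin n → ℝ}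
    (hl : ∑ a, l a * Stmt.pd a w x = 1) (hl2 : ∀ b, ∑ a, l a * Stmt.pd a (Stmt.pd b w) x = 0)
    (hll : ∑ a, ∑ b, g x a b * l a * l b = 0) :
    0 ≤ th e w x * Vk e w V x + V x * (th e w x ^ 2 - ww e w x) ∧
      0 ≤ th e w x * (∑ a, l a * Stmt.pd a V x) + ∑ a, l a * Xa e w V a x +
        (-bx e V x + V x * (Vkk e w V x + th e w x * Vk e w V x)) / 2 := by
  have hgs : ∀ a b, g x a b = g x b a := by
    intro a b
    rw [hT.hg x hx, hT.hg x hx]
    by_cases hab : a = b
    · subst hab; rfl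
    · rw [if_neg hab, if_neg (Ne.symm hab)]; ring
  set K : Fin n → ℝ := fun a => -(e a * Stmt.pd a w x) with hKdef
  have hKY : ∀ Y : Fin n → ℝ, Bf (g x) K Y = - ∑ b, Y b * Stmt.pd b w x := by
    intro Y
    unfold Bf
    rw [Finset.sum_comm, ← Finset.sum_neg_distrib]
    refine Finset.sum_congr rfl fun b _ => ?_
    have h1 := hT.g_k hx b
    calc ∑ i, g x i b * K i * Y b = - (Y b * ∑ a, (e a * Stmt.pd a w x) * g x a b) := by
          rw [Finset.mul_sum, ← Finset.sum_neg_distrib]
          exact Finset.sum_congr rfl fun a _ => by rw [hKdef]; ring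
      _ = _ := by rw [h1]
  have hsym : ∀ X Y, Bf (g x) X Y = Bf (g x) Y X := by
    intro X Y
    unfold Bf
    rw [Finset.sum_comm]
    exact Finset.sum_congr rfl fun i _ => Finset.sum_congr rfl fun j _ => by rw [hgs j i]; ring
  have hwK : ∑ i, Stmt.pd i w x * K i = 0 := by
    rw [← neg_eq_zero, ← Finset.sum_neg_distrib, ← hT.null x hx]
    exact Finset.sum_congr rfl fun a _ => by rw [hKdef]; ring
  have hwK' : ∑ i, K i * Stmt.pd i w x = 0 := by
    rw [← hwK]; exact Finset.sum_congr rfl fun a _ => mul_comm _ _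
  have hwl : ∑ i, Stmt.pd i w x * l i = 1 := by
    rw [← hl]; exact Finset.sum_congr rfl fun a _ => mul_comm _ _
  have hKl : Bf (g x) K l = -1 := by rw [hKY, hl]
  obtain ⟨h1, h2⟩ := dec_null h (K := K) (l := l) (by rw [hKY, hwK', neg_zero]) hll hKl
    (by rw [hsym, hKl]) hwK hwl
  constructor
  · have h3 : Bf (fun i j => Kerr.ein g i j x) K l =
        (th e w x * Vk e w V x + V x * (th e w x ^ 2 - ww e w x)) / 2 := by
      unfold Bf
      rw [Finset.sum_comm]
      have e1 : ∀ b, ∑ a, Kerr.ein g a b x * K a * l b =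
          ((th e w x * Vk e w V x + V x * (th e w x ^ 2 - ww e w x)) / 2) *
            (l b * Stmt.pd b w x) := by
        intro b
        have e2 : ∑ a, Kerr.ein g a b x * K a * l b =
            - (l b * ∑ a, (e a * Stmt.pd a w x) * H896.ein g a b x) := by
          rw [Finset.mul_sum, ← Finset.sum_neg_distrib]
          exact Finset.sum_congr rfl fun a _ => by rw [hKdef, ein_eq]; ring
        rw [e2, hT.ein_k hx b]; ring
      rw [Finset.sum_congr rfl fun b _ => e1 b, ← Finset.mul_sum, hl, mul_one]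
    rw [h3] at h1
    linarith
  · have h3 := hT.ein_l hx hl hl2 hll
    have h4 : Bf (fun i j => Kerr.ein g i j x) l l = ∑ a, ∑ b, H896.ein g a b x * l a * l b :=
      Finset.sum_congr rfl fun i _ => Finset.sum_congr rfl fun j _ => by
        show Kerr.ein g i j x * l i * l j = _
        rw [ein_eq]
    rw [h4, h3] at h2
    exact h2

end General

end X1

open X1 in
/-- **The dominant energy condition for the Kerr-Schild metric.** -/
theorem dec_ineq {lam : E n → ℝ} {V : E (n + 1) → ℝ} {p : E (n + 1)} (hl : ContDiffAt ℝ ∞ lam (sp p))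
    (hg : ∀ᶠ z in 𝓝 (sp p), ∑ i, pd i lam z ^ 2 = 1) (hV : ContDiffAt ℝ ∞ V p)
    (h : DECat (ksG lam V) (nul lam) p) :
    0 ≤ lap lam (sp p) * ((∑ i : Fin n, pd i lam (sp p) * pd i.succ V p) - pd 0 V p) +
        V p * (lap lam (sp p) ^ 2 - ∑ i, ∑ j, H353.N.hs lam i j (sp p) ^ 2) ∧
      0 ≤ lap lam (sp p) * pd 0 V p - ((∑ i : Fin n, pd i.succ (pd i.succ V) p) -
        (∑ i : Fin n, ∑ j : Fin n,
          pd i lam (sp p) * pd j lam (sp p) * pd i.succ (pd j.succ V) p) -
        lap lam (sp p) * ∑ i : Fin n, pd i lam (sp p) * pd i.succ V p) := by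
  obtain ⟨U, hpU, hK, hlU, hgU⟩ := ks0 hl hV (P := fun z => ∑ i, pd i lam (sp z) ^ 2 = 1)
    (sp_cont.continuousAt.eventually hg)
  have hT : KSg sgn (ksG lam V) (nul lam) V U := ⟨hK, fun z hz =>
    null_of ((hlU z hz).differentiableAt (by simp)) (hgU z hz)⟩
  have hl1 : DifferentiableAt ℝ lam (sp p) :=
    (hl.of_le (nat_le_smooth 1)).differentiableAt (by simp)
  have hV1 : DifferentiableAt ℝ V p :=
    (hV.of_le (nat_le_smooth 1)).differentiableAt (by simp)
  have hw : ∀ a, Stmt.pd a (nul lam) p = (Fin.cons 1 fun i => pd i lam (sp p) : Fin (n + 1) → ℝ) a :=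
    spd_nul hl1
  have hw0 : Stmt.pd 0 (nul lam) p = 1 := hw 0
  have hws : ∀ i : Fin n, Stmt.pd i.succ (nul lam) p = pd i lam (sp p) := fun i => hw i.succ
  have hh := spd2_nul (p := p) hl
  have hh0 : ∀ b, Stmt.pd 0 (Stmt.pd b (nul lam)) p = 0 := fun b => hh 0 b
  have hh0' : ∀ a, Stmt.pd a (Stmt.pd 0 (nul lam)) p = 0 := by
    intro a; rw [hh]; refine Fin.cases rfl (fun i => rfl) a
  have hhs : ∀ i j : Fin n, Stmt.pd i.succ (Stmt.pd j.succ (nul lam)) p =
      H353.N.hs lam i j (sp p) := fun i j => hh i.succ j.succ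
  have hd : ∀ a, Stmt.pd a V p = pd a V p := fun a => Bridge.pd_eq hV1 a
  have hdd : ∀ a b, Stmt.pd a (Stmt.pd b V) p = pd a (pd b V) p := by
    intro a b
    have h1 : Stmt.pd b V =ᶠ[𝓝 p] pd b V := by
      have h2 : ∀ᶠ z in 𝓝 p, ContDiffAt ℝ ((1 : ℕ) : WithTop ℕ∞) V z :=
        (hV.of_le (nat_le_smooth 1)).eventually (by simp)
      exact h2.mono fun z hz => Bridge.pd_eq (hz.differentiableAt (by simp)) b
    have h6 : ContDiffAt ℝ ((1 : ℕ) : WithTop ℕ∞) (fderiv ℝ V) p :=
      (hV.of_le (nat_le_smooth 2)).fderiv_right (by norm_cast)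
    have h7 : DifferentiableAt ℝ (pd b V) p :=
      (h6.clm_apply contDiffAt_const).differentiableAt (by simp)
    rw [pd_congrS h1 a, Bridge.pd_eq h7]
  have hvs : ∀ a b, pd a (pd b V) p = pd b (pd a V) p := by
    intro a b
    rw [← hdd, ← hdd]; exact hT.v2 hpU a b
  have hls : ∀ i j, H353.N.hs lam i j (sp p) = H353.N.hs lam j i (sp p) := by
    intro i j
    rw [← hhs, ← hhs]; exact hT.w2 hpU _ _
  have hg0 : ∑ i, pd i lam (sp p) ^ 2 = 1 := hgU p hpU
  have hg1 : ∀ j, ∑ i, pd i lam (sp p) * H353.N.hs lam i j (sp p) = 0 := by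
    intro j
    have h1 := hT.null1 hpU j.succ
    rw [Fin.sum_univ_succ] at h1
    simp only [sgn0, sgns, hw0, hws, hh0', hhs, one_mul, mul_zero, zero_add] at h1
    rw [← h1]
    exact Finset.sum_congr rfl fun i _ => by rw [hls i j]
  set l : Fin (n + 1) → ℝ := Fin.cons ((1 + V p) / 2) fun i => (1 - V p) / 2 * pd i lam (sp p) with hldef
  have l0 : l 0 = (1 + V p) / 2 := rfl
  have ls : ∀ i : Fin n, l i.succ = (1 - V p) / 2 * pd i lam (sp p) := fun i => rfl
  have hlw : ∑ a, l a * Stmt.pd a (nul lam) p = 1 := by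
    rw [Fin.sum_univ_succ]
    simp only [l0, ls, hw0, hws]
    have e1 : ∑ i, (1 - V p) / 2 * pd i lam (sp p) * pd i lam (sp p) =
        (1 - V p) / 2 * ∑ i, pd i lam (sp p) ^ 2 := by
      rw [Finset.mul_sum]
      exact Finset.sum_congr rfl fun i _ => by ring
    rw [e1, hg0]; ring
  have hlw2 : ∀ b, ∑ a, l a * Stmt.pd a (Stmt.pd b (nul lam)) p = 0 := by
    intro b
    rw [Fin.sum_univ_succ]
    refine Fin.cases ?_ (fun j => ?_) b
    · simp only [hh0', mul_zero, Finset.sum_const_zero, add_zero]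
    · simp only [hh0, hhs, ls, mul_zero, zero_add]
      have e1 : ∑ i, (1 - V p) / 2 * pd i lam (sp p) * H353.N.hs lam i j (sp p) =
          (1 - V p) / 2 * ∑ i, pd i lam (sp p) * H353.N.hs lam i j (sp p) := by
        rw [Finset.mul_sum]
        exact Finset.sum_congr rfl fun i _ => by ring
      rw [e1, hg1, mul_zero]
  have hll : ∑ a, ∑ b, ksG lam V p a b * l a * l b = 0 := by
    have e1 : ∀ a, ∑ b, ksG lam V p a b * l a * l b = sgn a * l a ^ 2 +
        V p * (l a * Stmt.pd a (nul lam) p) * ∑ b, l b * Stmt.pd b (nul lam) p := by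
      intro a
      have e2 : ∀ b, ksG lam V p a b * l a * l b = (if a = b then sgn a * l a ^ 2 else 0) +
          V p * (l a * Stmt.pd a (nul lam) p) * (l b * Stmt.pd b (nul lam) p) := by
        intro b
        rw [hT.hg p hpU]
        split_ifs with hab
        · subst hab; ring
        · ring
      simp only [e2, Finset.sum_add_distrib, Finset.sum_ite_eq, Finset.mem_univ, if_true,
        ← Finset.mul_sum]
    simp only [e1, hlw, mul_one, Finset.sum_add_distrib, ← Finset.mul_sum]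
    rw [Fin.sum_univ_succ]
    simp only [sgn0, sgns, l0, ls, one_mul]
    have e3 : ∑ i, ((1 - V p) / 2 * pd i lam (sp p)) ^ 2 =
        ((1 - V p) / 2) ^ 2 * ∑ i, pd i lam (sp p) ^ 2 := by
      rw [Finset.mul_sum]
      exact Finset.sum_congr rfl fun i _ => by ring
    rw [e3, hg0]; ring
  obtain ⟨h1, h2⟩ := dec_ks hT hpU h hlw hlw2 hll
  have hth : th sgn (nul lam) p = lap lam (sp p) := by
    unfold th
    rw [Fin.sum_univ_succ]
    simp only [sgns, hh0', hhs, one_mul, mul_zero, zero_add]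
    rfl
  have hww : ww sgn (nul lam) p = ∑ i, ∑ j, H353.N.hs lam i j (sp p) ^ 2 := by
    unfold ww ws
    rw [Fin.sum_univ_succ]
    simp only [hh0', mul_zero, Finset.sum_const_zero, zero_add]
    refine Finset.sum_congr rfl fun i _ => ?_
    rw [Fin.sum_univ_succ]
    simp only [sgns, hh0, hhs, one_mul, mul_zero, zero_add]
    exact Finset.sum_congr rfl fun j _ => by rw [hls j i]; ring
  have hVk : Vk sgn (nul lam) V p = (∑ i : Fin n, pd i lam (sp p) * pd i.succ V p) - pd 0 V p := by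
    unfold Vk
    rw [Fin.sum_univ_succ]
    simp only [sgn0, sgns, hd, hw0, hws, one_mul]
    ring
  constructor
  · rw [hth, hww, hVk] at h1
    exact h1
  · have hX : ∀ a, Xa sgn (nul lam) V a p = (∑ i : Fin n, pd i lam (sp p) * pd i.succ (pd a V) p) -
        pd 0 (pd a V) p := by
      intro a
      unfold Xa
      rw [Fin.sum_univ_succ]
      simp only [sgn0, sgns, hdd, hw0, hws, one_mul]
      ring
    have hb : bx sgn V p = (∑ i : Fin n, pd i.succ (pd i.succ V) p) - pd 0 (pd 0 V) p := by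
      unfold bx
      rw [Fin.sum_univ_succ]
      simp only [sgn0, sgns, hdd, one_mul]
      ring
    have hVkk : Vkk sgn (nul lam) V p = (∑ i : Fin n, pd i lam (sp p) *
        ((∑ j : Fin n, pd j lam (sp p) * pd j.succ (pd i.succ V) p) - pd 0 (pd i.succ V) p)) -
        ((∑ i : Fin n, pd i lam (sp p) * pd i.succ (pd 0 V) p) - pd 0 (pd 0 V) p) := by
      unfold Vkk
      rw [Fin.sum_univ_succ]
      simp only [sgn0, sgns, hX, hw0, hws, one_mul]
      ring
    have s1 : ∀ c : ℝ, ∑ i : Fin n, c * pd i lam (sp p) * pd i.succ V p =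
        c * ∑ i : Fin n, pd i lam (sp p) * pd i.succ V p := by
      intro c; rw [Finset.mul_sum]; exact Finset.sum_congr rfl fun i _ => by ring
    have s2 : ∑ i : Fin n, pd i lam (sp p) *
        ((∑ j : Fin n, pd j lam (sp p) * pd j.succ (pd i.succ V) p) - pd 0 (pd i.succ V) p) =
        (∑ i : Fin n, ∑ j : Fin n,
          pd i lam (sp p) * pd j lam (sp p) * pd i.succ (pd j.succ V) p) -
        ∑ i : Fin n, pd i lam (sp p) * pd i.succ (pd 0 V) p := by
      rw [Finset.sum_comm, ← Finset.sum_sub_distrib]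
      refine Finset.sum_congr rfl fun i _ => ?_
      rw [hvs 0 i.succ, mul_sub, Finset.mul_sum]
      congr 1
      exact Finset.sum_congr rfl fun j _ => by ring
    have s3 : ∀ c : ℝ, ∑ i : Fin n, c * pd i lam (sp p) *
        ((∑ j : Fin n, pd j lam (sp p) * pd j.succ (pd i.succ V) p) - pd 0 (pd i.succ V) p) =
        c * ∑ i : Fin n, pd i lam (sp p) *
          ((∑ j : Fin n, pd j lam (sp p) * pd j.succ (pd i.succ V) p) -
            pd 0 (pd i.succ V) p) := by
      intro c; rw [Finset.mul_sum]; exact Finset.sum_congr rfl fun i _ => by ring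
    rw [hth, hVk, hb, hVkk, Fin.sum_univ_succ, Fin.sum_univ_succ (f := fun a => l a * Xa _ _ _ a p)]
      at h2
    simp only [hd, hX, l0, ls, s1, s3, s2] at h2
    have h3 := mul_nonneg (by norm_num : (0 : ℝ) ≤ 2) h2
    refine h3.trans_eq ?_
    ring

end Vale.Agent.P366.KSN
end
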