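import Vale.Agent.P366.H222.N.Int

/-! Energy and momentum of Kerr-Schild exteriors in every dimension: notation. -/

open MeasureTheory Metric Filter Topology Set
open scoped ContDiff ENNReal

noncomputable section
namespace Vale.Agent.P366.KSN

open Vale.Agent.P366 (pd E)
open Vale.Agent.P366.H353.N
open Vale.Agent.P366.Kerr (NullCone IsSlice Region Psi pt sp nul ksG indG indK DECat)

variable {n : ℕ}

/-- `V` at time zero -/
def V0 (V : E (n + 1) → ℝ) (y : E n) : ℝ := V (pt 0 y)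

/-- the time derivative of `V` at time zero -/
def Vt (V : E (n + 1) → ℝ) (y : E n) : ℝ := pd 0 V (pt 0 y)

namespace X5

/-- the derivative of `v` in the direction of the gradient of `lam` -/
def dn (lam v : E n → ℝ) (y : E n) : ℝ := ∑ i, pd i lam y * pd i v y

/-- Smoothness of the data far out. -/
structure Far (lam v vt : E n → ℝ) (R : ℝ) : Prop where
  pos : 0 < R
  sl : ∀ y, R < ‖y‖ → ContDiffAt ℝ ∞ lam y
  gr : ∀ y, R < ‖y‖ → ∑ i, pd i lam y ^ 2 = 1
  sv : ∀ y, R < ‖y‖ → ContDiffAt ℝ ∞ v y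
  st : ∀ y, R < ‖y‖ → ContDiffAt ℝ ∞ vt y

/-- everything which holds far out; `M` bounds `|lam y - |y||` -/
structure FarD (C : NullCone n) (lam f : E n → ℝ) (V : E (n + 1) → ℝ) (D : Stmt.Exterior n)
    (R M : ℝ) : Prop extends Far lam (V0 V) (Vt V) R where
  F : ∀ y, R < ‖y‖ → 0 < D.F y
  f0 : ∀ y, R < ‖y‖ → f =ᶠ[𝓝 y] fun _ => 0
  smV : ∀ y, R < ‖y‖ → ContDiffAt ℝ ∞ V (pt 0 y)
  dec : ∀ y, R < ‖y‖ → DECat (ksG lam V) (nul lam) (pt 0 y)
  bd : ∀ y, R < ‖y‖ → |lam y - ‖y‖| ≤ M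
  ray : ∀ y, R < ‖y‖ → ∃ x s, ‖x‖ = 1 ∧ C.U x < s ∧ Y C.H x s = y
  Yfar : ∀ x s, ‖x‖ = 1 → R + M < s → C.U x < s ∧ R < ‖Y C.H x s‖

/-- the energy flux field -/
def Fe (lam v : E n → ℝ) (i : Fin n) (y : E n) : ℝ :=
  ((dn lam v y + v y * lap lam y) * pd i lam y - pd i v y) / 2

/-- the momentum flux field (linear part of `K - (tr K) g`) -/
def Pi (lam v vt : E n → ℝ) (i j : Fin n) (y : E n) : ℝ :=
  -(pd i v y * pd j lam y + pd j v y * pd i lam y) / 2 - v y * hs lam i j y +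
    vt y * pd i lam y * pd j lam y / 2 + (dn lam v y + v y * lap lam y - vt y / 2) * kd i j

/-- `2 G(k, l)` -/
def ea (lam v vt : E n → ℝ) (y : E n) : ℝ :=
  lap lam y * (dn lam v y - vt y) + v y * (lap lam y ^ 2 - ∑ i, ∑ j, hs lam i j y ^ 2)

/-- `2 G(l, l)` -/
def eb (lam v vt : E n → ℝ) (y : E n) : ℝ :=
  lap lam y * vt y - (lap v y - (∑ i, ∑ j, pd i lam y * pd j lam y * hs v i j y) -
    lap lam y * dn lam v y)

/-- the divergence of the momentum flux field -/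
def jj (lam v vt : E n → ℝ) (i : Fin n) (y : E n) : ℝ :=
  ((∑ j, hs v i j y * pd j lam y) + lap lam y * pd i v y - lap v y * pd i lam y -
    (∑ j, pd j v y * hs lam i j y) + (dn lam vt y + lap lam y * vt y) * pd i lam y -
    pd i vt y) / 2

/-- a smooth step -/
def chi (r : ℝ) : ℝ := Real.smoothTransition (r - 1)

/-- the cutoff in `|y|` -/
def cS (L : ℝ) (y : E n) : ℝ := chi (‖y‖ / L)

/-- the cutoff in `lam` (zero where `|y| ≤ R`) -/
def cL (lam : E n → ℝ) (R L : ℝ) (y : E n) : ℝ := if R < ‖y‖ then chi (lam y / L) else 0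

end X5

end Vale.Agent.P366.KSN
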