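import Vale.Agent.P366.H896.X1f
import Vale.Agent.P366.H896.N.X1
import Vale.Agent.P366.H896.N.X5Defs

/-! The momentum constraint and the dominant energy condition for the Kerr-Schild metric. -/

open MeasureTheory Metric Filter Topology Set
open scoped ContDiff ENNReal

noncomputable section


namespace Vale.Agent.P366.KSN

open Vale.Agent.P366 (pd E)
open Vale.Agent.P366.H353.N
open Vale.Agent.P366.H896
open Vale.Agent.P366.Kerr (NullCone IsSlice Region Psi pt sp nul ksG indG indK DECat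
  FutureTimelike)

variable {n : ℕ}

namespace X1

lemma Bf_add3 (g : Fin n → Fin n → ℝ) (l u K : Fin n → ℝ) (c t : ℝ) :
    Bf g (fun i => l i + u i + c * K i) (fun j => l j + t * K j) =
      Bf g l l + Bf g u l + c * Bf g K l + t * (Bf g l K + Bf g u K + c * Bf g K K) := by
  unfold Bf
  simp only [Finset.mul_sum, ← Finset.sum_add_distrib]
  exact Finset.sum_congr rfl fun i _ => Finset.sum_congr rfl fun j _ => by ring

lemma Bf_sq3 (g : Fin n → Fin n → ℝ) (l u K : Fin n → ℝ) (c : ℝ) :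
    Bf g (fun i => l i + u i + c * K i) (fun i => l i + u i + c * K i) =
      Bf g l l + Bf g u u + Bf g l u + Bf g u l + c * (Bf g l K + Bf g K l) +
        c * (Bf g u K + Bf g K u) + c ^ 2 * Bf g K K := by
  unfold Bf
  simp only [Finset.mul_sum, ← Finset.sum_add_distrib]
  exact Finset.sum_congr rfl fun i _ => Finset.sum_congr rfl fun j _ => by ring

/-- The dominant energy condition on a null vector `l + u + K / 2` and `l`. -/
lemma dec_u {g : Stmt.Field n} {w : Stmt.E n → ℝ} {x : Stmt.E n} (h : DECat g w x)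
    {K l u : Fin n → ℝ} (hKK : Bf (g x) K K = 0) (hll : Bf (g x) l l = 0)
    (hKl : Bf (g x) K l = -1) (hlK : Bf (g x) l K = -1) (hwK : ∑ i, Stmt.pd i w x * K i = 0)
    (hwl : ∑ i, Stmt.pd i w x * l i = 1) (hwu : ∑ i, Stmt.pd i w x * u i = 0)
    (huu : Bf (g x) u u ≤ 1) (hlu : Bf (g x) l u = 0) (hul : Bf (g x) u l = 0)
    (huK : Bf (g x) u K = 0) (hKu : Bf (g x) K u = 0) :
    0 ≤ Bf (fun i j => Kerr.ein g i j x) l l + Bf (fun i j => Kerr.ein g i j x) u l +
      Bf (fun i j => Kerr.ein g i j x) K l / 2 := by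
  set G : Fin n → Fin n → ℝ := fun i j => Kerr.ein g i j x with hG
  have hX : ∀ t : ℝ, 0 < t → FutureTimelike g w x (fun i => l i + u i + (1 / 2 + t) * K i) := by
    intro t ht
    constructor
    · show Bf (g x) (fun i => l i + u i + (1 / 2 + t) * K i)
        (fun i => l i + u i + (1 / 2 + t) * K i) < 0
      rw [Bf_sq3, hKK, hll, hKl, hlK, hlu, hul, huK, hKu]; linarith
    · have e1 : ∑ i, Stmt.pd i w x * (l i + u i + (1 / 2 + t) * K i) = 1 := by
        rw [lin_lin (fun i => Stmt.pd i w x) (fun i => l i + u i) K, hwK]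
        simp only [mul_add, Finset.sum_add_distrib, hwl, hwu]
        ring
      rw [e1]; norm_num
  have hY : ∀ t : ℝ, 0 < t → FutureTimelike g w x (fun i => l i + t * K i) := by
    intro t ht
    constructor
    · show Bf (g x) (fun i => l i + t * K i) (fun i => l i + t * K i) < 0
      rw [Bf_lin, hKK, hll, hKl, hlK]; linarith
    · rw [lin_lin, hwK, hwl]; linarith
  refine lim_nonneg (b := Bf G K l + (Bf G l K + Bf G u K + 1 / 2 * Bf G K K))
    (c := Bf G K K) fun t ht => ?_
  have h1 : 0 ≤ Bf G (fun i => l i + u i + (1 / 2 + t) * K i) (fun j => l j + t * K j) :=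
    h _ _ (hX t ht) (hY t ht)
  rw [Bf_add3] at h1
  linarith

/-- The dominant energy condition for a metric of Kerr-Schild form, tangential direction. -/
theorem dec_ks_u {e : Fin n → ℝ} {g : Stmt.Field n} {w V : Stmt.E n → ℝ} {U : Set (Stmt.E n)}
    (hT : KSg e g w V U) {x : Stmt.E n} (hx : x ∈ U) (h : DECat g w x) {l u : Fin n → ℝ}
    (hl : ∑ a, l a * Stmt.pd a w x = 1) (hl2 : ∀ b, ∑ a, l a * Stmt.pd a (Stmt.pd b w) x = 0)
    (hll : ∑ a, ∑ b, g x a b * l a * l b = 0) (hu : ∑ a, u a * Stmt.pd a w x = 0)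
    (hul : ∑ a, ∑ b, g x a b * u a * l b = 0) (huu : ∑ a, ∑ b, g x a b * u a * u b ≤ 1) :
    0 ≤ (th e w x * (∑ a, l a * Stmt.pd a V x) + ∑ a, l a * Xa e w V a x +
        (-bx e V x + V x * (Vkk e w V x + th e w x * Vk e w V x)) / 2) +
      (th e w x * (∑ a, u a * Stmt.pd a V x) + ∑ a, u a * Xa e w V a x -
        ∑ a, u a * qa e w V a x) / 2 +
      (th e w x * Vk e w V x + V x * (th e w x ^ 2 - ww e w x)) / 4 := by
  have hgs : ∀ a b, g x a b = g x b a := by
    intro a b
    rw [hT.hg x hx, hT.hg x hx]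
    by_cases hab : a = b
    · subst hab; rfl
    · rw [if_neg hab, if_neg (Ne.symm hab)]; ring
  set K : Fin n → ℝ := fun a => -(e a * Stmt.pd a w x) with hKdef
  have hKY : ∀ Y : Fin n → ℝ, Bf (g x) K Y = - ∑ b, Y b * Stmt.pd b w x := by
    intro Y
    unfold Bf
    rw [Finset.sum_comm, ← Finset.sum_neg_distrib]
    refine Finset.sum_congr rfl fun b _ => ?_
    have h1 := hT.g_k hx b
    calc ∑ i, g x i b * K i * Y b = - (Y b * ∑ a, (e a * Stmt.pd a w x) * g x a b) := by
          rw [Finset.mul_sum, ← Finset.sum_neg_distrib]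
          exact Finset.sum_congr rfl fun a _ => by rw [hKdef]; ring
      _ = _ := by rw [h1]
  have hsym : ∀ X Y, Bf (g x) X Y = Bf (g x) Y X := by
    intro X Y
    unfold Bf
    rw [Finset.sum_comm]
    exact Finset.sum_congr rfl fun i _ => Finset.sum_congr rfl fun j _ => by rw [hgs j i]; ring
  have hwK : ∑ i, Stmt.pd i w x * K i = 0 := by
    rw [← neg_eq_zero, ← Finset.sum_neg_distrib, ← hT.null x hx]
    exact Finset.sum_congr rfl fun a _ => by rw [hKdef]; ring
  have hwK' : ∑ i, K i * Stmt.pd i w x = 0 := by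
    rw [← hwK]; exact Finset.sum_congr rfl fun a _ => mul_comm _ _
  have hwl : ∑ i, Stmt.pd i w x * l i = 1 := by
    rw [← hl]; exact Finset.sum_congr rfl fun a _ => mul_comm _ _
  have hwu : ∑ i, Stmt.pd i w x * u i = 0 := by
    rw [← hu]; exact Finset.sum_congr rfl fun a _ => mul_comm _ _
  have hKl : Bf (g x) K l = -1 := by rw [hKY, hl]
  have hKu : Bf (g x) K u = 0 := by rw [hKY, hu, neg_zero]
  have h1 := dec_u h (K := K) (l := l) (u := u) (by rw [hKY, hwK', neg_zero]) hll hKl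
    (by rw [hsym, hKl]) hwK hwl hwu huu (by rw [hsym]; exact hul) hul (by rw [hsym, hKu]) hKu
  have h3 : Bf (fun i j => Kerr.ein g i j x) K l =
      (th e w x * Vk e w V x + V x * (th e w x ^ 2 - ww e w x)) / 2 := by
    unfold Bf
    rw [Finset.sum_comm]
    have e1 : ∀ b, ∑ a, Kerr.ein g a b x * K a * l b =
        ((th e w x * Vk e w V x + V x * (th e w x ^ 2 - ww e w x)) / 2) *
          (l b * Stmt.pd b w x) := by
      intro b
      have e2 : ∑ a, Kerr.ein g a b x * K a * l b =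
          - (l b * ∑ a, (e a * Stmt.pd a w x) * H896.ein g a b x) := by
        rw [Finset.mul_sum, ← Finset.sum_neg_distrib]
        exact Finset.sum_congr rfl fun a _ => by rw [hKdef, ein_eq]; ring
      rw [e2, hT.ein_k hx b]; ring
    rw [Finset.sum_congr rfl fun b _ => e1 b, ← Finset.mul_sum, hl, mul_one]
  have h4 : Bf (fun i j => Kerr.ein g i j x) l l =
      th e w x * (∑ a, l a * Stmt.pd a V x) + ∑ a, l a * Xa e w V a x +
        (-bx e V x + V x * (Vkk e w V x + th e w x * Vk e w V x)) / 2 := by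
    rw [← hT.ein_l hx hl hl2 hll]
    exact Finset.sum_congr rfl fun i _ => Finset.sum_congr rfl fun j _ => by
      show Kerr.ein g i j x * l i * l j = _
      rw [ein_eq]
  have h5 : Bf (fun i j => Kerr.ein g i j x) u l =
      (th e w x * (∑ a, u a * Stmt.pd a V x) + ∑ a, u a * Xa e w V a x -
        ∑ a, u a * qa e w V a x) / 2 := by
    rw [← hT.ein_ul hx hl hl2 hu hul]
    exact Finset.sum_congr rfl fun i _ => Finset.sum_congr rfl fun j _ => by
      show Kerr.ein g i j x * u i * l j = _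
      rw [ein_eq]
  rw [h3, h4, h5] at h1
  linarith

end X1

open X1 in
/-- **The dominant energy condition for the Kerr-Schild metric**, tangential direction. -/
theorem dec_ineq_u {lam : E n → ℝ} {V : E (n + 1) → ℝ} {p : E (n + 1)}
    (hl : ContDiffAt ℝ ∞ lam (sp p)) (hg : ∀ᶠ z in 𝓝 (sp p), ∑ i, pd i lam z ^ 2 = 1)
    (hV : ContDiffAt ℝ ∞ V p) (h : DECat (ksG lam V) (nul lam) p) {u : Fin n → ℝ}
    (hu : ∑ i, u i * pd i lam (sp p) = 0) (huu : ∑ i, u i ^ 2 ≤ 1) :
    0 ≤ (lap lam (sp p) * pd 0 V p - ((∑ i : Fin n, pd i.succ (pd i.succ V) p) -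
        (∑ i : Fin n, ∑ j : Fin n,
          pd i lam (sp p) * pd j lam (sp p) * pd i.succ (pd j.succ V) p) -
        lap lam (sp p) * ∑ i : Fin n, pd i lam (sp p) * pd i.succ V p)) / 2 +
      (lap lam (sp p) * (∑ i, u i * pd i.succ V p) +
        (∑ i, u i * ((∑ j : Fin n, pd j lam (sp p) * pd j.succ (pd i.succ V) p) -
          pd 0 (pd i.succ V) p)) -
        ∑ i, u i * ∑ j : Fin n, pd j.succ V p * H353.N.hs lam j i (sp p)) / 2 +
      (lap lam (sp p) * ((∑ i : Fin n, pd i lam (sp p) * pd i.succ V p) - pd 0 V p) +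
        V p * (lap lam (sp p) ^ 2 - ∑ i, ∑ j, H353.N.hs lam i j (sp p) ^ 2)) / 4 := by
  obtain ⟨U, hpU, hK, hlU, hgU⟩ := ks0 hl hV (P := fun z => ∑ i, pd i lam (sp z) ^ 2 = 1)
    (sp_cont.continuousAt.eventually hg)
  have hT : KSg sgn (ksG lam V) (nul lam) V U := ⟨hK, fun z hz =>
    null_of ((hlU z hz).differentiableAt (by simp)) (hgU z hz)⟩
  have hl1 : DifferentiableAt ℝ lam (sp p) :=
    (hl.of_le (nat_le_smooth 1)).differentiableAt (by simp)
  have hV1 : DifferentiableAt ℝ V p :=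
    (hV.of_le (nat_le_smooth 1)).differentiableAt (by simp)
  have hw : ∀ a, Stmt.pd a (nul lam) p = (Fin.cons 1 fun i => pd i lam (sp p) : Fin (n + 1) → ℝ) a :=
    spd_nul hl1
  have hw0 : Stmt.pd 0 (nul lam) p = 1 := hw 0
  have hws : ∀ i : Fin n, Stmt.pd i.succ (nul lam) p = pd i lam (sp p) := fun i => hw i.succ
  have hh := spd2_nul (p := p) hl
  have hh0 : ∀ b, Stmt.pd 0 (Stmt.pd b (nul lam)) p = 0 := fun b => hh 0 b
  have hh0' : ∀ a, Stmt.pd a (Stmt.pd 0 (nul lam)) p = 0 := by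
    intro a; rw [hh]; refine Fin.cases rfl (fun i => rfl) a
  have hhs : ∀ i j : Fin n, Stmt.pd i.succ (Stmt.pd j.succ (nul lam)) p =
      H353.N.hs lam i j (sp p) := fun i j => hh i.succ j.succ
  have hd : ∀ a, Stmt.pd a V p = pd a V p := fun a => Bridge.pd_eq hV1 a
  have hdd : ∀ a b, Stmt.pd a (Stmt.pd b V) p = pd a (pd b V) p := by
    intro a b
    have h1 : Stmt.pd b V =ᶠ[𝓝 p] pd b V := by
      have h2 : ∀ᶠ z in 𝓝 p, ContDiffAt ℝ ((1 : ℕ) : WithTop ℕ∞) V z :=
        (hV.of_le (nat_le_smooth 1)).eventually (by simp)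
      exact h2.mono fun z hz => Bridge.pd_eq (hz.differentiableAt (by simp)) b
    have h6 : ContDiffAt ℝ ((1 : ℕ) : WithTop ℕ∞) (fderiv ℝ V) p :=
      (hV.of_le (nat_le_smooth 2)).fderiv_right (by norm_cast)
    have h7 : DifferentiableAt ℝ (pd b V) p :=
      (h6.clm_apply contDiffAt_const).differentiableAt (by simp)
    rw [pd_congrS h1 a, Bridge.pd_eq h7]
  have hvs : ∀ a b, pd a (pd b V) p = pd b (pd a V) p := by
    intro a b
    rw [← hdd, ← hdd]; exact hT.v2 hpU a b
  have hls : ∀ i j, H353.N.hs lam i j (sp p) = H353.N.hs lam j i (sp p) := by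
    intro i j
    rw [← hhs, ← hhs]; exact hT.w2 hpU _ _
  have hg0 : ∑ i, pd i lam (sp p) ^ 2 = 1 := hgU p hpU
  have hg1 : ∀ j, ∑ i, pd i lam (sp p) * H353.N.hs lam i j (sp p) = 0 := by
    intro j
    have h1 := hT.null1 hpU j.succ
    rw [Fin.sum_univ_succ] at h1
    simp only [sgn0, sgns, hw0, hws, hh0', hhs, one_mul, mul_zero, zero_add] at h1
    rw [← h1]
    exact Finset.sum_congr rfl fun i _ => by rw [hls i j]
  set l : Fin (n + 1) → ℝ := Fin.cons ((1 + V p) / 2) fun i => (1 - V p) / 2 * pd i lam (sp p) with hldef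
  have l0 : l 0 = (1 + V p) / 2 := rfl
  have ls : ∀ i : Fin n, l i.succ = (1 - V p) / 2 * pd i lam (sp p) := fun i => rfl
  have hlw : ∑ a, l a * Stmt.pd a (nul lam) p = 1 := by
    rw [Fin.sum_univ_succ]
    simp only [l0, ls, hw0, hws]
    have e1 : ∑ i, (1 - V p) / 2 * pd i lam (sp p) * pd i lam (sp p) =
        (1 - V p) / 2 * ∑ i, pd i lam (sp p) ^ 2 := by
      rw [Finset.mul_sum]
      exact Finset.sum_congr rfl fun i _ => by ring
    rw [e1, hg0]; ring
  have hlw2 : ∀ b, ∑ a, l a * Stmt.pd a (Stmt.pd b (nul lam)) p = 0 := by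
    intro b
    rw [Fin.sum_univ_succ]
    refine Fin.cases ?_ (fun j => ?_) b
    · simp only [hh0', mul_zero, Finset.sum_const_zero, add_zero]
    · simp only [hh0, hhs, ls, mul_zero, zero_add]
      have e1 : ∑ i, (1 - V p) / 2 * pd i lam (sp p) * H353.N.hs lam i j (sp p) =
          (1 - V p) / 2 * ∑ i, pd i lam (sp p) * H353.N.hs lam i j (sp p) := by
        rw [Finset.mul_sum]
        exact Finset.sum_congr rfl fun i _ => by ring
      rw [e1, hg1, mul_zero]
  have hll : ∑ a, ∑ b, ksG lam V p a b * l a * l b = 0 := by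
    have e1 : ∀ a, ∑ b, ksG lam V p a b * l a * l b = sgn a * l a ^ 2 +
        V p * (l a * Stmt.pd a (nul lam) p) * ∑ b, l b * Stmt.pd b (nul lam) p := by
      intro a
      have e2 : ∀ b, ksG lam V p a b * l a * l b = (if a = b then sgn a * l a ^ 2 else 0) +
          V p * (l a * Stmt.pd a (nul lam) p) * (l b * Stmt.pd b (nul lam) p) := by
        intro b
        rw [hT.hg p hpU]
        split_ifs with hab
        · subst hab; ring
        · ring
      simp only [e2, Finset.sum_add_distrib, Finset.sum_ite_eq, Finset.mem_univ, if_true,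
        ← Finset.mul_sum]
    simp only [e1, hlw, mul_one, Finset.sum_add_distrib, ← Finset.mul_sum]
    rw [Fin.sum_univ_succ]
    simp only [sgn0, sgns, l0, ls, one_mul]
    have e3 : ∑ i, ((1 - V p) / 2 * pd i lam (sp p)) ^ 2 =
        ((1 - V p) / 2) ^ 2 * ∑ i, pd i lam (sp p) ^ 2 := by
      rw [Finset.mul_sum]
      exact Finset.sum_congr rfl fun i _ => by ring
    rw [e3, hg0]; ring
  set ue : Fin (n + 1) → ℝ := Fin.cons 0 u with huedef
  have u0 : ue 0 = 0 := rfl
  have us : ∀ i : Fin n, ue i.succ = u i := fun i => rfl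
  have huw : ∑ a, ue a * Stmt.pd a (nul lam) p = 0 := by
    rw [Fin.sum_univ_succ]
    simp only [u0, us, hw0, hws, zero_mul, zero_add]
    exact hu
  have hul : ∑ a, ∑ b, ksG lam V p a b * ue a * l b = 0 := by
    have e1 : ∀ a, ∑ b, ksG lam V p a b * ue a * l b = sgn a * ue a * l a +
        V p * (ue a * Stmt.pd a (nul lam) p) * ∑ b, l b * Stmt.pd b (nul lam) p := by
      intro a
      have e2 : ∀ b, ksG lam V p a b * ue a * l b = (if a = b then sgn a * ue a * l a else 0) +
          V p * (ue a * Stmt.pd a (nul lam) p) * (l b * Stmt.pd b (nul lam) p) := by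
        intro b
        rw [hT.hg p hpU]
        split_ifs with hab
        · subst hab; ring
        · ring
      simp only [e2, Finset.sum_add_distrib, Finset.sum_ite_eq, Finset.mem_univ, if_true,
        ← Finset.mul_sum]
    simp only [e1, Finset.sum_add_distrib, ← Finset.mul_sum, ← Finset.sum_mul, huw]
    rw [Fin.sum_univ_succ]
    simp only [sgns, u0, us, ls, one_mul]
    have e3 : ∑ i, u i * ((1 - V p) / 2 * pd i lam (sp p)) =
        (1 - V p) / 2 * ∑ i, u i * pd i lam (sp p) := by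
      rw [Finset.mul_sum]
      exact Finset.sum_congr rfl fun i _ => by ring
    rw [e3, hu]; ring
  have huu' : ∑ a, ∑ b, ksG lam V p a b * ue a * ue b ≤ 1 := by
    have e1 : ∀ a, ∑ b, ksG lam V p a b * ue a * ue b = sgn a * ue a ^ 2 +
        V p * (ue a * Stmt.pd a (nul lam) p) * ∑ b, ue b * Stmt.pd b (nul lam) p := by
      intro a
      have e2 : ∀ b, ksG lam V p a b * ue a * ue b = (if a = b then sgn a * ue a ^ 2 else 0) +
          V p * (ue a * Stmt.pd a (nul lam) p) * (ue b * Stmt.pd b (nul lam) p) := by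
        intro b
        rw [hT.hg p hpU]
        split_ifs with hab
        · subst hab; ring
        · ring
      simp only [e2, Finset.sum_add_distrib, Finset.sum_ite_eq, Finset.mem_univ, if_true,
        ← Finset.mul_sum]
    simp only [e1, huw, mul_zero, add_zero]
    rw [Fin.sum_univ_succ]
    simp only [sgns, u0, us, one_mul]
    linarith
  have h2 := dec_ks_u hT hpU h hlw hlw2 hll huw hul huu'
  have hth : th sgn (nul lam) p = lap lam (sp p) := by
    unfold th
    rw [Fin.sum_univ_succ]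
    simp only [sgns, hh0', hhs, one_mul, mul_zero, zero_add]
    rfl
  have hww : ww sgn (nul lam) p = ∑ i, ∑ j, H353.N.hs lam i j (sp p) ^ 2 := by
    unfold ww ws
    rw [Fin.sum_univ_succ]
    simp only [hh0', mul_zero, Finset.sum_const_zero, zero_add]
    refine Finset.sum_congr rfl fun i _ => ?_
    rw [Fin.sum_univ_succ]
    simp only [sgns, hh0, hhs, one_mul, mul_zero, zero_add]
    exact Finset.sum_congr rfl fun j _ => by rw [hls j i]; ring
  have hVk : Vk sgn (nul lam) V p = (∑ i : Fin n, pd i lam (sp p) * pd i.succ V p) - pd 0 V p := by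
    unfold Vk
    rw [Fin.sum_univ_succ]
    simp only [sgn0, sgns, hd, hw0, hws, one_mul]
    ring
  have hX : ∀ a, Xa sgn (nul lam) V a p = (∑ i : Fin n, pd i lam (sp p) * pd i.succ (pd a V) p) -
      pd 0 (pd a V) p := by
    intro a
    unfold Xa
    rw [Fin.sum_univ_succ]
    simp only [sgn0, sgns, hdd, hw0, hws, one_mul]
    ring
  have hb : bx sgn V p = (∑ i : Fin n, pd i.succ (pd i.succ V) p) - pd 0 (pd 0 V) p := by
    unfold bx
    rw [Fin.sum_univ_succ]
    simp only [sgn0, sgns, hdd, one_mul]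
    ring
  have hVkk : Vkk sgn (nul lam) V p = (∑ i : Fin n, pd i lam (sp p) *
      ((∑ j : Fin n, pd j lam (sp p) * pd j.succ (pd i.succ V) p) - pd 0 (pd i.succ V) p)) -
      ((∑ i : Fin n, pd i lam (sp p) * pd i.succ (pd 0 V) p) - pd 0 (pd 0 V) p) := by
    unfold Vkk
    rw [Fin.sum_univ_succ]
    simp only [sgn0, sgns, hX, hw0, hws, one_mul]
    ring
  have s1 : ∀ c : ℝ, ∑ i : Fin n, c * pd i lam (sp p) * pd i.succ V p =
      c * ∑ i : Fin n, pd i lam (sp p) * pd i.succ V p := by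
    intro c; rw [Finset.mul_sum]; exact Finset.sum_congr rfl fun i _ => by ring
  have s2 : ∑ i : Fin n, pd i lam (sp p) *
      ((∑ j : Fin n, pd j lam (sp p) * pd j.succ (pd i.succ V) p) - pd 0 (pd i.succ V) p) =
      (∑ i : Fin n, ∑ j : Fin n,
        pd i lam (sp p) * pd j lam (sp p) * pd i.succ (pd j.succ V) p) -
      ∑ i : Fin n, pd i lam (sp p) * pd i.succ (pd 0 V) p := by
    rw [Finset.sum_comm, ← Finset.sum_sub_distrib]
    refine Finset.sum_congr rfl fun i _ => ?_
    rw [hvs 0 i.succ, mul_sub, Finset.mul_sum]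
    congr 1
    exact Finset.sum_congr rfl fun j _ => by ring
  have s3 : ∀ c : ℝ, ∑ i : Fin n, c * pd i lam (sp p) *
      ((∑ j : Fin n, pd j lam (sp p) * pd j.succ (pd i.succ V) p) - pd 0 (pd i.succ V) p) =
      c * ∑ i : Fin n, pd i lam (sp p) *
        ((∑ j : Fin n, pd j lam (sp p) * pd j.succ (pd i.succ V) p) -
          pd 0 (pd i.succ V) p) := by
    intro c; rw [Finset.mul_sum]; exact Finset.sum_congr rfl fun i _ => by ring
  have hq : ∀ a, qa sgn (nul lam) V a p = (∑ j : Fin n, pd j.succ V p *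
      Stmt.pd j.succ (Stmt.pd a (nul lam)) p) := by
    intro a
    unfold qa
    rw [Fin.sum_univ_succ]
    simp only [sgns, hd, hh0, one_mul, mul_zero, zero_add]
  rw [hth, hVk, hb, hVkk, hww, Fin.sum_univ_succ (f := fun a => l a * Stmt.pd a V p),
    Fin.sum_univ_succ (f := fun a => l a * Xa _ _ _ a p),
    Fin.sum_univ_succ (f := fun a => ue a * Stmt.pd a V p),
    Fin.sum_univ_succ (f := fun a => ue a * Xa _ _ _ a p),
    Fin.sum_univ_succ (f := fun a => ue a * qa _ _ _ a p)] at h2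
  simp only [hd, hX, hq, hhs, l0, ls, u0, us, s1, s3, s2, zero_mul, zero_add] at h2
  refine h2.trans_eq ?_
  ring



namespace X5

lemma sp_pt (t : ℝ) (y : E n) : sp (pt t y) = y := by
  ext i
  simp [sp, pt]

lemma pt_add (t : ℝ) (y : E n) (i : Fin n) (h : ℝ) :
    pt t (y + h • EuclideanSpace.single i (1 : ℝ)) =
      pt t y + h • EuclideanSpace.single i.succ (1 : ℝ) := by
  ext j
  refine Fin.cases ?_ (fun j => ?_) j
  · have : (0 : Fin (n + 1)) ≠ i.succ := (Fin.succ_ne_zero i).symm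
    simp [pt, this]
  · simp [pt]

lemma spd_pt (F : E (n + 1) → ℝ) (t : ℝ) (y : E n) (i : Fin n) :
    Stmt.pd i (fun z => F (pt t z)) y = Stmt.pd i.succ F (pt t y) := by
  show deriv (fun h : ℝ => F (pt t (y + h • EuclideanSpace.single i (1 : ℝ)))) 0 =
    deriv (fun h : ℝ => F (pt t y + h • EuclideanSpace.single i.succ (1 : ℝ))) 0
  congr 1
  funext h
  exact congrArg F (pt_add t y i h)

lemma pt_contDiff {r : WithTop ℕ∞} (t : ℝ) : ContDiff ℝ r (pt t : E n → E (n + 1)) := by
  rw [contDiff_euclidean]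
  intro i
  refine Fin.cases ?_ (fun j => ?_) i
  · exact contDiff_const
  · exact (EuclideanSpace.proj (𝕜 := ℝ) j).contDiff

lemma pd_pt {F : E (n + 1) → ℝ} {t : ℝ} {y : E n} (hF : DifferentiableAt ℝ F (pt t y))
    (i : Fin n) : pd i (fun z => F (pt t z)) y = pd i.succ F (pt t y) := by
  have h1 : DifferentiableAt ℝ (fun z => F (pt t z)) y :=
    hF.comp y (pt_contDiff (r := 1) t).contDiffAt.differentiableAt_one
  rw [← Bridge.pd_eq h1, ← Bridge.pd_eq hF, spd_pt]

lemma cd_pt {F : E (n + 1) → ℝ} {t : ℝ} {y : E n} {r : WithTop ℕ∞}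
    (hF : ContDiffAt ℝ r F (pt t y)) : ContDiffAt ℝ r (fun z => F (pt t z)) y :=
  hF.comp y (pt_contDiff t).contDiffAt

lemma cd_pd {F : E n → ℝ} {y : E n} (hF : ContDiffAt ℝ ∞ F y) (i : Fin n) :
    ContDiffAt ℝ ∞ (pd i F) y := by
  have h1 : ContDiffAt ℝ ∞ (fderiv ℝ F) y := hF.fderiv_right (by simp)
  exact h1.clm_apply contDiffAt_const

lemma pd_pt_ev {F : E (n + 1) → ℝ} {t : ℝ} {y : E n} (hF : ContDiffAt ℝ ∞ F (pt t y))
    (i : Fin n) : pd i (fun z => F (pt t z)) =ᶠ[𝓝 y] fun z => pd i.succ F (pt t z) := by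
  have h1 : ∀ᶠ q in 𝓝 (pt t y), ContDiffAt ℝ ((1 : ℕ) : WithTop ℕ∞) F q :=
    (hF.of_le (X1.nat_le_smooth 1)).eventually (by simp)
  have h2 : ∀ᶠ z in 𝓝 y, ContDiffAt ℝ ((1 : ℕ) : WithTop ℕ∞) F (pt t z) :=
    (pt_contDiff (r := 0) t).continuous.continuousAt.eventually h1
  exact h2.mono fun z hz => pd_pt (hz.differentiableAt (by simp)) i

lemma hs_pt {F : E (n + 1) → ℝ} {t : ℝ} {y : E n} (hF : ContDiffAt ℝ ∞ F (pt t y))
    (i j : Fin n) : hs (fun z => F (pt t z)) i j y = pd i.succ (pd j.succ F) (pt t y) := by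
  have h1 : pd i (pd j fun z => F (pt t z)) y = pd i (fun z => pd j.succ F (pt t z)) y :=
    Vale.Agent.P366.pd_congr (pd_pt_ev hF j) i
  unfold H353.N.hs
  rw [h1]
  exact pd_pt ((cd_pd hF j.succ).differentiableAt (by simp)) i

/-- second derivatives commute -/
lemma pd_comm' {F : E n → ℝ} {y : E n} (hF : ContDiffAt ℝ ∞ F y) (i j : Fin n) :
    pd i (pd j F) y = pd j (pd i F) y := by
  have hd : DifferentiableAt ℝ (fderiv ℝ F) y :=
    (hF.fderiv_right (m := ∞) (by simp)).differentiableAt (by simp)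
  have key : ∀ a b : Fin n, pd a (pd b F) y =
      fderiv ℝ (fderiv ℝ F) y (EuclideanSpace.single a 1) (EuclideanSpace.single b 1) := by
    intro a b
    unfold Vale.Agent.P366.pd
    have := fderiv_clm_apply hd (differentiableAt_const (EuclideanSpace.single b (1 : ℝ)))
    rw [this]
    simp
  rw [key, key]
  have h2 : minSmoothness ℝ 2 ≤ ((⊤ : ℕ∞) : WithTop ℕ∞) := by
    rw [minSmoothness_of_isRCLikeNormedField]
    exact X1.nat_le_smooth 2
  exact (hF.isSymmSndFDerivAt h2).eq _ _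

variable {lam : E n → ℝ} {V : E (n + 1) → ℝ}

/-- the first derivative of the eikonal equation -/
lemma eik {y : E n} (hl : ContDiffAt ℝ ∞ lam y) (hg : ∀ᶠ z in 𝓝 y, ∑ i, pd i lam z ^ 2 = 1)
    (j : Fin n) : ∑ i, pd i lam y * hs lam i j y = 0 := by
  have e0 : (fun z => ∑ i, pd i lam z ^ 2) = fun z => ∑ i, pd i lam z * pd i lam z := by
    funext z
    exact Finset.sum_congr rfl fun i _ => by ring
  have h1 : pd j (fun z => ∑ i, pd i lam z * pd i lam z) y = 0 := by
    rw [← e0, Vale.Agent.P366.pd_congr (hg : (fun z => ∑ i, pd i lam z ^ 2) =ᶠ[𝓝 y] fun _ => 1) j,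
      Vale.Agent.P366.pd_const]
  have h2 : pd j (fun z => ∑ i, pd i lam z * pd i lam z) y =
      ∑ i, 2 * (pd i lam y * pd j (pd i lam) y) := by
    have hd : ∀ i, DifferentiableAt ℝ (pd i lam) y := fun i =>
      (cd_pd hl i).differentiableAt (by simp)
    have h3 := Vale.Agent.P366.pd_sum Finset.univ (f := fun i z => pd i lam z * pd i lam z)
      (x := y) (fun i _ => (hd i).mul (hd i)) j
    refine h3.trans (Finset.sum_congr rfl fun i _ => ?_)
    rw [Vale.Agent.P366.pd_mul (hd i) (hd i) j]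
    ring
  rw [h2, ← Finset.mul_sum] at h1
  have h3 : ∑ i, pd i lam y * pd j (pd i lam) y = 0 := by linarith
  rw [← h3]
  refine Finset.sum_congr rfl fun i _ => ?_
  unfold H353.N.hs
  rw [pd_comm' hl i j]

/-- `|j_i| ≤ a + b`: the momentum density is bounded by the energy density. -/
theorem dec_j {y : E n} (hl : ContDiffAt ℝ ∞ lam y) (hg : ∀ᶠ z in 𝓝 y, ∑ i, pd i lam z ^ 2 = 1)
    (hV : ContDiffAt ℝ ∞ V (pt 0 y)) (h : DECat (ksG lam V) (nul lam) (pt 0 y)) :
    0 ≤ ea lam (V0 V) (Vt V) y ∧ 0 ≤ eb lam (V0 V) (Vt V) y ∧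
      ∀ i, |jj lam (V0 V) (Vt V) i y| ≤ ea lam (V0 V) (Vt V) y + eb lam (V0 V) (Vt V) y := by
  have hsp : sp (pt 0 y) = y := sp_pt 0 y
  have hl' : ContDiffAt ℝ ∞ lam (sp (pt 0 y)) := by rw [hsp]; exact hl
  have hg' : ∀ᶠ z in 𝓝 (sp (pt 0 y)), ∑ i, pd i lam z ^ 2 = 1 := by rw [hsp]; exact hg
  have hVd : DifferentiableAt ℝ V (pt 0 y) := hV.differentiableAt (by simp)
  have d1 : ∀ i, pd i (V0 V) y = pd i.succ V (pt 0 y) := fun i => pd_pt hVd i
  have d2 : ∀ i j, hs (V0 V) i j y = pd i.succ (pd j.succ V) (pt 0 y) := fun i j => hs_pt hV i j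
  have d3 : ∀ i, pd i (Vt V) y = pd 0 (pd i.succ V) (pt 0 y) := by
    intro i
    have : pd i (Vt V) y = pd i.succ (pd 0 V) (pt 0 y) :=
      pd_pt ((cd_pd hV 0).differentiableAt (by simp)) i
    rw [this, pd_comm' hV]
  have hea : ea lam (V0 V) (Vt V) y =
      lap lam y * ((∑ i : Fin n, pd i lam y * pd i.succ V (pt 0 y)) - pd 0 V (pt 0 y)) +
        V (pt 0 y) * (lap lam y ^ 2 - ∑ i, ∑ j, H353.N.hs lam i j y ^ 2) := by
    unfold ea dn V0 Vt
    simp only [← d1]
    rfl
  have heb : eb lam (V0 V) (Vt V) y =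
      lap lam y * pd 0 V (pt 0 y) - ((∑ i : Fin n, pd i.succ (pd i.succ V) (pt 0 y)) -
        (∑ i : Fin n, ∑ j : Fin n,
          pd i lam y * pd j lam y * pd i.succ (pd j.succ V) (pt 0 y)) -
        lap lam y * ∑ i : Fin n, pd i lam y * pd i.succ V (pt 0 y)) := by
    unfold eb dn lap
    simp only [d1, d2]
    rfl
  obtain ⟨ha, hb⟩ := dec_ineq hl' hg' hV h
  rw [hsp, ← hea] at ha
  rw [hsp, ← heb] at hb
  have gr : ∑ i, pd i lam y ^ 2 = 1 := hg.self_of_nhds
  have d4 : ∀ i j, hs (V0 V) i j y = hs (V0 V) j i y := by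
    intro i j
    rw [d2, d2, pd_comm' hV]
  -- tangential directions
  have hT : ∀ u : Fin n → ℝ, ∑ i, u i * pd i lam y = 0 → ∑ i, u i ^ 2 ≤ 1 →
      0 ≤ eb lam (V0 V) (Vt V) y / 2 + ∑ i, u i * jj lam (V0 V) (Vt V) i y +
        ea lam (V0 V) (Vt V) y / 4 := by
    intro u hu huu
    have h1 := dec_ineq_u hl' hg' hV h (u := u) (by rw [hsp]; exact hu) huu
    rw [hsp, ← hea, ← heb] at h1
    have h2 : ∑ i, u i * jj lam (V0 V) (Vt V) i y =
        (lap lam y * (∑ i, u i * pd i.succ V (pt 0 y)) +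
        (∑ i, u i * ((∑ j : Fin n, pd j lam y * pd j.succ (pd i.succ V) (pt 0 y)) -
          pd 0 (pd i.succ V) (pt 0 y))) -
        ∑ i, u i * ∑ j : Fin n, pd j.succ V (pt 0 y) * H353.N.hs lam j i y) / 2 := by
      have e1 : ∀ i, u i * jj lam (V0 V) (Vt V) i y =
          lap lam y / 2 * (u i * pd i.succ V (pt 0 y)) +
          (u i * ((∑ j : Fin n, pd j lam y * pd j.succ (pd i.succ V) (pt 0 y)) -
            pd 0 (pd i.succ V) (pt 0 y))) / 2 -
          (u i * ∑ j : Fin n, pd j.succ V (pt 0 y) * H353.N.hs lam j i y) / 2 +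
          ((dn lam (Vt V) y + lap lam y * Vt V y) - lap (V0 V) y) / 2 * (u i * pd i lam y) := by
        intro i
        have e2 : ∑ j, hs (V0 V) i j y * pd j lam y =
            ∑ j : Fin n, pd j lam y * pd j.succ (pd i.succ V) (pt 0 y) :=
          Finset.sum_congr rfl fun j _ => by rw [d4 i j, d2]; ring
        have e3 : ∑ j, pd j (V0 V) y * hs lam i j y =
            ∑ j : Fin n, pd j.succ V (pt 0 y) * H353.N.hs lam j i y :=
          Finset.sum_congr rfl fun j _ => by
            rw [d1]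
            unfold H353.N.hs
            rw [pd_comm' hl]
        unfold jj
        rw [e2, e3, d1, d3]
        ring
      simp only [e1, Finset.sum_add_distrib, Finset.sum_sub_distrib, ← Finset.mul_sum,
        ← Finset.sum_div, hu]
      ring
    rw [h2]
    exact h1
  -- the normal direction
  have hN : ∑ i, pd i lam y * jj lam (V0 V) (Vt V) i y = eb lam (V0 V) (Vt V) y / 2 := by
    have e1 : ∀ i, pd i lam y * jj lam (V0 V) (Vt V) i y =
        (∑ j, pd i lam y * pd j lam y * hs (V0 V) i j y) / 2 +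
        lap lam y / 2 * (pd i lam y * pd i (V0 V) y) +
        ((dn lam (Vt V) y + lap lam y * Vt V y) - lap (V0 V) y) / 2 * pd i lam y ^ 2 -
        (∑ j, pd j (V0 V) y * (pd i lam y * hs lam i j y)) / 2 -
        (pd i lam y * pd i (Vt V) y) / 2 := by
      intro i
      have e2 : ∑ j, pd i lam y * pd j lam y * hs (V0 V) i j y =
          pd i lam y * ∑ j, hs (V0 V) i j y * pd j lam y := by
        rw [Finset.mul_sum]; exact Finset.sum_congr rfl fun j _ => by ring
      have e3 : ∑ j, pd j (V0 V) y * (pd i lam y * hs lam i j y) =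
          pd i lam y * ∑ j, pd j (V0 V) y * hs lam i j y := by
        rw [Finset.mul_sum]; exact Finset.sum_congr rfl fun j _ => by ring
      unfold jj
      rw [e2, e3]
      ring
    have e4 : ∑ i, ∑ j, pd j (V0 V) y * (pd i lam y * hs lam i j y) = 0 := by
      rw [Finset.sum_comm]
      simp only [← Finset.mul_sum, eik hl hg, mul_zero, Finset.sum_const_zero]
    simp only [e1, Finset.sum_add_distrib, Finset.sum_sub_distrib, ← Finset.mul_sum,
      ← Finset.sum_div, gr, e4]
    unfold eb dn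
    ring
  refine ⟨ha, hb, fun i0 => ?_⟩
  have hn1 : |pd i0 lam y| ≤ 1 := by
    rw [← sq_le_one_iff_abs_le_one, ← gr]
    exact Finset.single_le_sum (f := fun i => pd i lam y ^ 2) (fun i _ => sq_nonneg _)
      (Finset.mem_univ i0)
  set u : Fin n → ℝ := fun j => (if j = i0 then 1 else 0) - pd i0 lam y * pd j lam y with hu
  have u1 : ∑ i, u i * pd i lam y = 0 := by
    have e1 : ∀ i, u i * pd i lam y = (if i = i0 then pd i0 lam y else 0) -
        pd i0 lam y * pd i lam y ^ 2 := by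
      intro i
      simp only [hu]
      split_ifs with hi
      · subst hi; ring
      · ring
    simp only [e1, Finset.sum_sub_distrib, Finset.sum_ite_eq', Finset.mem_univ, if_true,
      ← Finset.mul_sum, gr]
    ring
  have u2 : ∑ i, u i ^ 2 ≤ 1 := by
    have e1 : ∀ i, u i ^ 2 = (if i = i0 then 1 - 2 * pd i0 lam y ^ 2 else 0) +
        pd i0 lam y ^ 2 * pd i lam y ^ 2 := by
      intro i
      simp only [hu]
      split_ifs with hi
      · subst hi; ring
      · ring
    simp only [e1, Finset.sum_add_distrib, Finset.sum_ite_eq', Finset.mem_univ, if_true,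
      ← Finset.mul_sum, gr]
    nlinarith [sq_nonneg (pd i0 lam y)]
  have h1 := hT u u1 u2
  have h2 := hT (fun i => - u i) (by simp only [neg_mul, Finset.sum_neg_distrib, u1, neg_zero])
    (by simpa using u2)
  simp only [neg_mul, Finset.sum_neg_distrib] at h2
  have h3 : jj lam (V0 V) (Vt V) i0 y = ∑ i, u i * jj lam (V0 V) (Vt V) i y +
      pd i0 lam y * (eb lam (V0 V) (Vt V) y / 2) := by
    rw [← hN]
    have e1 : ∀ i, u i * jj lam (V0 V) (Vt V) i y =
        (if i = i0 then jj lam (V0 V) (Vt V) i0 y else 0) -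
          pd i0 lam y * (pd i lam y * jj lam (V0 V) (Vt V) i y) := by
      intro i
      simp only [hu]
      split_ifs with hi
      · subst hi; ring
      · ring
    simp only [e1, Finset.sum_sub_distrib, Finset.sum_ite_eq', Finset.mem_univ, if_true,
      ← Finset.mul_sum]
    ring
  have h4 := abs_le.1 hn1
  rw [h3, abs_le]
  constructor
  · nlinarith [mul_nonneg hb (by linarith : (0 : ℝ) ≤ 1 + pd i0 lam y)]
  · nlinarith [mul_nonneg hb (by linarith : (0 : ℝ) ≤ 1 - pd i0 lam y)]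

end X5

end Vale.Agent.P366.KSN
end
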