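import Vale.Agent.P366.H896.N.X5d
import Vale.Agent.P366.H474.N.FarB
import Vale.Agent.P366.H222.N.X0e

/-! The far region of a Kerr-Schild exterior. -/

open MeasureTheory Metric Filter Topology Set
open scoped ContDiff ENNReal

noncomputable section
namespace Vale.Agent.P366.KSN

open Vale.Agent.P366 (pd E)
open Vale.Agent.P366.H353.N
open Vale.Agent.P366.Kerr (NullCone IsSlice Region Psi pt sp nul ksG indG indK DECat)

variable {n : ℕ} {C : NullCone n} {lam f : E n → ℝ} {V : E (n + 1) → ℝ} {D : Stmt.Exterior n}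

namespace X5

theorem exists_far [Fact (3 ≤ n)] (hS : IsSlice C lam V f D)
    (hV : ∀ p ∈ Region lam f D, ContDiffAt ℝ ∞ V p ∧ DECat (ksG lam V) (nul lam) p) :
    ∃ R M, FarD C lam f V D R M := by
  obtain ⟨G, R, hG1, hR1, hG, -, hfar⟩ := exists_farPt hS
  obtain ⟨L0, hL0⟩ := exists_U_le C
  have hreg : ∀ y : E n, R < ‖y‖ → pt 0 y ∈ Region lam f D := by
    intro y hy
    obtain ⟨x, s, F⟩ := hfar y hy
    have h1 := mem_region hS F.hF.le
    rwa [F.hf.self_of_nhds] at h1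
  have hlt : ∀ y : E n, max R L0 < ‖y‖ → R < ‖y‖ := fun y hy => (le_max_left _ _).trans_lt hy
  refine ⟨max R L0, G, ⟨⟨?_, ?_, ?_, ?_, ?_⟩, ?_, ?_, ?_, ?_, ?_, ?_, ?_⟩⟩
  · exact lt_max_of_lt_left (by linarith)
  · intro y hy
    obtain ⟨x, s, F⟩ := hfar y (hlt y hy)
    exact hS.smL y F.hF.le
  · intro y hy
    obtain ⟨x, s, F⟩ := hfar y (hlt y hy)
    exact gsq_lam' hS F.hF.le
  · intro y hy
    exact cd_pt (hV _ (hreg y (hlt y hy))).1
  · intro y hy
    exact cd_pt (cd_pd (hV _ (hreg y (hlt y hy))).1 0)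
  · intro y hy
    obtain ⟨x, s, F⟩ := hfar y (hlt y hy)
    exact F.hF
  · intro y hy
    obtain ⟨x, s, F⟩ := hfar y (hlt y hy)
    exact F.hf
  · intro y hy
    exact (hV _ (hreg y (hlt y hy))).1
  · intro y hy
    exact (hV _ (hreg y (hlt y hy))).2
  · intro y hy
    obtain ⟨x, s, F⟩ := hfar y (hlt y hy)
    have h1 := lam_Y hS F.hx F.hU.le
    rw [F.hY] at h1
    rw [h1, abs_sub_comm]
    exact F.h2
  · intro y hy
    obtain ⟨x, s, F⟩ := hfar y (hlt y hy)
    exact ⟨x, s, F.hx, F.hU, F.hY⟩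
  · intro x s hx hs
    have h1 : C.U x ≤ L0 := hL0 x hx
    have h2 : L0 ≤ max R L0 := le_max_right _ _
    refine ⟨by linarith, ?_⟩
    rw [Y_grv]
    have h3 : ‖s • x‖ ≤ ‖grv C.H x + s • x‖ + ‖grv C.H x‖ := by
      have := norm_sub_le (grv C.H x + s • x) (grv C.H x)
      rwa [add_sub_cancel_left] at this
    have h4 : s ≤ ‖s • x‖ := by
      rw [norm_smul, hx, mul_one, Real.norm_eq_abs]; exact le_abs_self s
    have h5 := hG x hx
    linarith

end X5

end Vale.Agent.P366.KSN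
end
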