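import Vale.Agent.P366.H222.N.X0e
import Vale.Agent.P366.H381.NH0a

/-! Derivatives along the rays of the determinant and of the trace of the cofactor matrix. -/

open MeasureTheory Metric Filter Topology Set
open scoped ContDiff ENNReal

noncomputable section
namespace Vale.Agent.P366.KSN

open Vale.Agent.P366 (pd E)
open Vale.Agent.P366.H353.N
open Vale.Agent.P366.Kerr (NullCone IsSlice Region Psi pt sp nul ksG indG indK DECat)

variable {n : ℕ} {C : NullCone n} {lam f : E n → ℝ} {V : E (n + 1) → ℝ} {D : Stmt.Exterior n}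
  {x y z : E n} {s t : ℝ}

/-- the derivative of `sg` along the ray -/
def kp (H : E n → ℝ) (s : ℝ) (x : E n) : ℝ :=
  (sg H s x ^ 2 - ((Ms H s x).adjugate * (Ms H s x).adjugate).trace + dts H s x ^ 2) / dts H s x

/-- the projection as a matrix -/
def prM (x : E n) : Matrix (Fin n) (Fin n) ℝ := Matrix.of fun i j => pr x i j

lemma Ms_deriv (H : E n → ℝ) (x : E n) (s : ℝ) (i j : Fin n) :
    HasDerivAt (fun s => Ms H s x i j) (prM x i j) s := by
  have h : (fun s => Ms H s x i j) = fun s => hs H i j x + s * pr x i j + x i * x j := by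
    funext s; simp [Ms, Ws]
  rw [h]
  have := (((hasDerivAt_id s).mul_const (pr x i j)).const_add (hs H i j x)).add_const (x i * x j)
  simpa [prM] using this

lemma Ms_mulVec (C : NullCone n) (hx : ‖x‖ = 1) : (Ms C.H s x).mulVec x = x := by
  funext j
  exact Ms_mul_x C hx j

lemma adj_mulVec (C : NullCone n) (hx : ‖x‖ = 1) :
    (Ms C.H s x).adjugate.mulVec x = (Ms C.H s x).det • (x : Fin n → ℝ) := by
  conv_lhs => rw [← Ms_mulVec (s := s) C hx]
  rw [Matrix.mulVec_mulVec, Matrix.adjugate_mul, Matrix.smul_mulVec, Matrix.one_mulVec]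

/-- `tr (B P) = tr B - x · B x` -/
lemma trace_prM (B : Matrix (Fin n) (Fin n) ℝ) (x : E n) :
    (B * prM x).trace = B.trace - (x : Fin n → ℝ) ⬝ᵥ B.mulVec x := by
  simp only [Matrix.trace, Matrix.diag_apply, Matrix.mul_apply, prM, Matrix.of_apply, pr, kd,
    mul_sub, mul_ite, mul_one, mul_zero, Finset.sum_sub_distrib, Finset.sum_ite_eq',
    Finset.mem_univ, if_true]
  congr 1
  simp only [dotProduct, Matrix.mulVec, Finset.mul_sum]
  exact Finset.sum_congr rfl fun i _ => Finset.sum_congr rfl fun j _ => by ring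

theorem hasDerivAt_dts (C : NullCone n) (hx : ‖x‖ = 1) (s : ℝ) :
    HasDerivAt (fun s => dts C.H s x) (sg C.H s x) s := by
  have h1 := MC.hasDerivAt_det (N := fun s => Ms C.H s x) (N' := prM x) (t := s)
    (fun i j => Ms_deriv C.H x s i j)
  have h2 : ((Ms C.H s x).adjugate * prM x).trace = sg C.H s x := by
    rw [trace_prM, adj_mulVec C hx, dotProduct_smul]
    have : (x : Fin n → ℝ) ⬝ᵥ x = 1 := sum_xx hx
    rw [this]
    simp [sg]
  rw [h2] at h1
  exact h1

/-- the entries of the adjugate are differentiable along the ray -/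
lemma adj_diff (H : E n → ℝ) (x : E n) (s : ℝ) (i j : Fin n) :
    ∃ d, HasDerivAt (fun s => (Ms H s x).adjugate i j) d s := by
  have h1 := MC.hasDerivAt_det (N := fun s => (Ms H s x).updateRow j (Pi.single i 1))
    (N' := (prM x).updateRow j 0) (t := s) (by
      intro a b
      by_cases ha : a = j
      · subst ha
        simp only [Matrix.updateRow_self]
        exact hasDerivAt_const _ _
      · simp only [Matrix.updateRow_ne ha]
        exact Ms_deriv H x s a b)
  refine ⟨(((Ms H s x).updateRow j (Pi.single i 1)).adjugate * (prM x).updateRow j 0).trace, ?_⟩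
  simp only [Matrix.adjugate_apply]
  exact h1

theorem hasDerivAt_sg (C : NullCone n) (hx : ‖x‖ = 1) (hs : C.U x ≤ s) :
    HasDerivAt (fun s => sg C.H s x) (kp C.H s x) s := by
  choose d hd using fun i j => adj_diff C.H x s i j
  set N := Ms C.H s x with hN
  have hdet : N.det ≠ 0 := (dts_pos C hx hs).ne'
  -- differentiate `M * adj M = det M`
  have h1 : prM x * N.adjugate + N * Matrix.of d = sg C.H s x • (1 : Matrix (Fin n) (Fin n) ℝ) := by
    ext i j
    have h2 : HasDerivAt (fun s => (Ms C.H s x * (Ms C.H s x).adjugate) i j)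
        (∑ k, (prM x i k * N.adjugate k j + N i k * d k j)) s := by
      simp only [Matrix.mul_apply]
      exact HasDerivAt.fun_sum fun k _ => (Ms_deriv C.H x s i k).mul (hd k j)
    have h3 : HasDerivAt (fun s => (Ms C.H s x * (Ms C.H s x).adjugate) i j)
        (sg C.H s x * (1 : Matrix (Fin n) (Fin n) ℝ) i j) s := by
      simp only [Matrix.mul_adjugate, Matrix.smul_apply, smul_eq_mul]
      exact (hasDerivAt_dts C hx s).mul_const _
    have h4 := h2.unique h3
    rw [Matrix.add_apply, Matrix.mul_apply, Matrix.mul_apply, ← Finset.sum_add_distrib,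
      Matrix.smul_apply, smul_eq_mul]
    simpa using h4
  have h5 : (Matrix.of d).trace = sg C.H s x * (N⁻¹).trace - (N⁻¹ * (prM x * N.adjugate)).trace := by
    have h6 : Matrix.of d = sg C.H s x • N⁻¹ - N⁻¹ * (prM x * N.adjugate) := by
      have h7 : N * Matrix.of d = sg C.H s x • (1 : Matrix (Fin n) (Fin n) ℝ) -
          prM x * N.adjugate := by rw [← h1]; simp
      calc Matrix.of d = N⁻¹ * (N * Matrix.of d) := by
            rw [← Matrix.mul_assoc, Matrix.nonsing_inv_mul _ hdet.isUnit, Matrix.one_mul]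
        _ = _ := by rw [h7, Matrix.mul_sub, Matrix.mul_smul, Matrix.mul_one]
    rw [h6, Matrix.trace_sub, Matrix.trace_smul, smul_eq_mul]
  have h8 : HasDerivAt (fun s => sg C.H s x) ((Matrix.of d).trace - sg C.H s x) s := by
    have h9 : HasDerivAt (fun s => (Ms C.H s x).adjugate.trace) (Matrix.of d).trace s := by
      simp only [Matrix.trace, Matrix.diag_apply, Matrix.of_apply]
      exact HasDerivAt.fun_sum fun i _ => hd i i
    exact h9.sub (hasDerivAt_dts C hx s)
  have hadj : N.adjugate = N.det • N⁻¹ := by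
    rw [Matrix.inv_def, Ring.inverse_eq_inv', smul_smul, mul_inv_cancel₀ hdet, one_smul]
  have hsym : N.transpose = N := Ms_symm C hx
  have hinvx : N⁻¹.mulVec x = x := by
    conv_lhs => rw [← Ms_mulVec (s := s) C hx]
    rw [Matrix.mulVec_mulVec, Matrix.nonsing_inv_mul _ hdet.isUnit, Matrix.one_mulVec]
  have hxx : (x : Fin n → ℝ) ⬝ᵥ x = 1 := sum_xx hx
  have h10 : (N⁻¹ * (prM x * N.adjugate)).trace = N.det * ((N⁻¹ * N⁻¹).trace - 1) := by
    rw [hadj, Matrix.mul_smul, Matrix.mul_smul, Matrix.trace_smul, smul_eq_mul, ← Matrix.mul_assoc,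
      Matrix.trace_mul_comm, ← Matrix.mul_assoc, trace_prM, ← Matrix.mulVec_mulVec, hinvx, hinvx,
      hxx]
  have h11 : kp C.H s x = (Matrix.of d).trace - sg C.H s x := by
    rw [h5, h10]
    unfold kp
    rw [← hN, hadj, Matrix.smul_mul, Matrix.mul_smul, smul_smul, Matrix.trace_smul, smul_eq_mul]
    have h12 : dts C.H s x = N.det := rfl
    rw [h12, sg_eq C hx hs, h12, ← hN]
    field_simp
    ring
  rw [h11]
  exact h8

theorem kp_eq (hS : IsSlice C lam V f D) (hx : ‖x‖ = 1) (hs : C.U x ≤ s) :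
    kp C.H s x = dts C.H s x * (lap lam (Y C.H x s) ^ 2 -
      ∑ i, ∑ j, H353.N.hs lam i j (Y C.H x s) ^ 2) := by
  have hdet : (Ms C.H s x).det ≠ 0 := (dts_pos C hx hs).ne'
  have hadj : (Ms C.H s x).adjugate = (Ms C.H s x).det • (Ms C.H s x)⁻¹ := by
    rw [Matrix.inv_def, Ring.inverse_eq_inv', smul_smul, mul_inv_cancel₀ hdet, one_smul]
  rw [lap_lam_eq hS hx hs, hs_sq_eq hS hx hs]
  unfold kp
  rw [hadj, Matrix.smul_mul, Matrix.mul_smul, smul_smul, Matrix.trace_smul, smul_eq_mul]
  have h12 : dts C.H s x = (Ms C.H s x).det := rfl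
  rw [sg_eq C hx hs, h12]
  field_simp
  ring

/-- `tr B² ≤ (tr B)²` for a nonnegative matrix -/
lemma psd_tr {B : Fin n → Fin n → ℝ} (hB : ∀ i j, B i j = B j i)
    (hp : ∀ v : Fin n → ℝ, 0 ≤ ∑ i, ∑ j, B i j * v i * v j) :
    ∑ i, ∑ j, B i j ^ 2 ≤ (∑ i, B i i) ^ 2 := by
  have h1 : ∀ i j, B i j ^ 2 ≤ B i i * B j j := by
    intro i j
    have h2 : ∀ t : ℝ, 0 ≤ B i i * (t * t) + 2 * B i j * t + B j j := by
      intro t
      have h3 := hp (fun k => (if k = i then t else 0) + (if k = j then 1 else 0))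
      have h4 : ∑ a, ∑ b, B a b * ((if a = i then t else 0) + (if a = j then 1 else 0)) *
          ((if b = i then t else 0) + (if b = j then 1 else 0)) =
          B i i * (t * t) + 2 * B i j * t + B j j := by
        simp only [mul_add, mul_ite, mul_one, mul_zero, add_mul, ite_mul, zero_mul,
          Finset.sum_add_distrib, Finset.sum_ite_eq', Finset.mem_univ, if_true]
        rw [hB j i]; ring
      rw [h4] at h3
      exact h3
    have h5 := discrim_le_zero h2
    unfold discrim at h5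
    nlinarith
  calc ∑ i, ∑ j, B i j ^ 2 ≤ ∑ i, ∑ j, B i i * B j j :=
        Finset.sum_le_sum fun i _ => Finset.sum_le_sum fun j _ => h1 i j
    _ = (∑ i, B i i) ^ 2 := by
        rw [sq, Finset.sum_mul]
        exact Finset.sum_congr rfl fun i _ => by rw [Finset.mul_sum]

theorem kp_nonneg (C : NullCone n) (hx : ‖x‖ = 1) (hs : C.U x ≤ s) : 0 ≤ kp C.H s x := by
  set A := (Ms C.H s x)⁻¹ with hA
  have hd : 0 < (Ms C.H s x).det := dts_pos C hx hs
  have hdet : (Ms C.H s x).det ≠ 0 := hd.ne'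
  have hP := (Ms_posDef C hx hs).inv
  have hAx : A.mulVec x = x := by
    conv_lhs => rw [← Ms_mulVec (s := s) C hx]
    rw [Matrix.mulVec_mulVec, Matrix.nonsing_inv_mul _ hdet.isUnit, Matrix.one_mulVec]
  have hsym : A.transpose = A := by
    rw [hA, Matrix.transpose_nonsing_inv, Ms_symm C hx]
  have hsy : ∀ i j, A i j = A j i := fun i j => congrFun (congrFun hsym j) i
  have hxA : Matrix.vecMul x A = x := by
    rw [← Matrix.mulVec_transpose, hsym, hAx]
  have hxx : (x : Fin n → ℝ) ⬝ᵥ x = 1 := sum_xx hx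
  -- the tangential part of the inverse is nonnegative
  have hB : ∀ v : Fin n → ℝ, 0 ≤ ∑ i, ∑ j, (A i j - x i * x j) * v i * v j := by
    intro v
    set u : Fin n → ℝ := v - ((x : Fin n → ℝ) ⬝ᵥ v) • (x : Fin n → ℝ) with hu
    have h1 : u ⬝ᵥ A.mulVec u = v ⬝ᵥ A.mulVec v - ((x : Fin n → ℝ) ⬝ᵥ v) ^ 2 := by
      have hxv : (x : Fin n → ℝ) ⬝ᵥ A.mulVec v = (x : Fin n → ℝ) ⬝ᵥ v := by
        rw [Matrix.dotProduct_mulVec, hxA]
      rw [hu, Matrix.mulVec_sub, Matrix.mulVec_smul, hAx]
      simp only [sub_dotProduct, dotProduct_sub, smul_dotProduct, dotProduct_smul, hxv, hxx,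
        smul_eq_mul]
      rw [dotProduct_comm v (x : Fin n → ℝ)]
      ring
    have h2 : 0 ≤ u ⬝ᵥ A.mulVec u := by
      have := hP.posSemidef.dotProduct_mulVec_nonneg u
      simpa using this
    have h3 : v ⬝ᵥ A.mulVec v - ((x : Fin n → ℝ) ⬝ᵥ v) ^ 2 =
        ∑ i, ∑ j, (A i j - x i * x j) * v i * v j := by
      have e1 : v ⬝ᵥ A.mulVec v = ∑ i, ∑ j, A i j * v i * v j := by
        simp only [dotProduct, Matrix.mulVec, Finset.mul_sum]
        exact Finset.sum_congr rfl fun i _ => Finset.sum_congr rfl fun j _ => by ring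
      have e2 : ((x : Fin n → ℝ) ⬝ᵥ v) ^ 2 = ∑ i, ∑ j, (x i * x j) * v i * v j := by
        simp only [dotProduct, sq, Finset.sum_mul_sum]
        exact Finset.sum_congr rfl fun i _ => Finset.sum_congr rfl fun j _ => by ring
      rw [e1, e2, ← Finset.sum_sub_distrib]
      refine Finset.sum_congr rfl fun i _ => ?_
      rw [← Finset.sum_sub_distrib]
      exact Finset.sum_congr rfl fun j _ => by ring
    rw [← h3, ← h1]
    exact h2
  have h4 := psd_tr (B := fun i j => A i j - x i * x j) (fun i j => by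
    show A i j - x i * x j = A j i - x j * x i
    rw [hsy i j]; ring) hB
  have h5 : ∑ i, (A i i - x i * x i) = A.trace - 1 := by
    rw [Finset.sum_sub_distrib, sum_xx hx]; rfl
  have h6 : ∑ i, ∑ j, (A i j - x i * x j) ^ 2 = (A * A).trace - 1 := by
    have e1 : ∀ i j, (A i j - x i * x j) ^ 2 = A i j * A j i - 2 * (x i * (A i j * x j)) +
        (x i * x i) * (x j * x j) := by
      intro i j; rw [hsy j i]; ring
    have e2 : ∀ i, ∑ j, A i j * x j = x i := fun i => congrFun hAx i
    simp only [e1, Finset.sum_add_distrib, Finset.sum_sub_distrib, ← Finset.mul_sum, e2, sum_xx hx,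
      mul_one]
    simp only [Matrix.trace, Matrix.diag_apply, Matrix.mul_apply]
    ring
  have hadj : (Ms C.H s x).adjugate = (Ms C.H s x).det • A := by
    rw [hA, Matrix.inv_def, Ring.inverse_eq_inv', smul_smul, mul_inv_cancel₀ hdet, one_smul]
  have h12 : dts C.H s x = (Ms C.H s x).det := rfl
  have h7 : kp C.H s x = (Ms C.H s x).det * ((A.trace - 1) ^ 2 - ((A * A).trace - 1)) := by
    unfold kp
    rw [hadj, Matrix.smul_mul, Matrix.mul_smul, smul_smul, Matrix.trace_smul, smul_eq_mul,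
      sg_eq C hx hs, h12, ← hA]
    field_simp
    ring
  rw [h7]
  refine mul_nonneg hd.le ?_
  have h8 : ∑ i, ∑ j, (A i j - x i * x j) ^ 2 ≤ (∑ i, (A i i - x i * x i)) ^ 2 := h4
  rw [h5, h6] at h8
  linarith

/-! ### continuity in both variables -/

lemma Ms_cont2 (C : NullCone n) {S : Set ℝ} :
    ContinuousOn (fun p : ℝ × E n => Ms C.H p.1 p.2) (S ×ˢ sphere (0 : E n) 1) := by
  refine continuousOn_pi.2 fun i => continuousOn_pi.2 fun j => ?_
  have hc : ∀ k : Fin n, ContinuousOn (fun p : ℝ × E n => p.2 k) (S ×ˢ sphere (0 : E n) 1) :=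
    fun k => ((EuclideanSpace.proj (𝕜 := ℝ) k).continuous.comp continuous_snd).continuousOn
  have hh : ContinuousOn (fun p : ℝ × E n => hs C.H i j p.2) (S ×ˢ sphere (0 : E n) 1) :=
    ((smH C).hs i j).contOn.comp continuous_snd.continuousOn fun p hp => hp.2
  have h1 : ContinuousOn (fun p : ℝ × E n => hs C.H i j p.2 +
      p.1 * (kd i j - p.2 i * p.2 j) + p.2 i * p.2 j) (S ×ˢ sphere (0 : E n) 1) :=
    (hh.add (continuous_fst.continuousOn.mul (continuousOn_const.sub ((hc i).mul (hc j))))).add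
      ((hc i).mul (hc j))
  exact h1

theorem dts_cont2 (C : NullCone n) {S : Set ℝ} :
    ContinuousOn (fun p : ℝ × E n => dts C.H p.1 p.2) (S ×ˢ sphere (0 : E n) 1) :=
  (continuous_id.matrix_det).comp_continuousOn (Ms_cont2 C)

theorem adjtr_cont2 (C : NullCone n) {S : Set ℝ} :
    ContinuousOn (fun p : ℝ × E n => (Ms C.H p.1 p.2).adjugate) (S ×ˢ sphere (0 : E n) 1) :=
  (continuous_id.matrix_adjugate).comp_continuousOn (Ms_cont2 C)

theorem sg_cont2 (C : NullCone n) {S : Set ℝ} :
    ContinuousOn (fun p : ℝ × E n => sg C.H p.1 p.2) (S ×ˢ sphere (0 : E n) 1) :=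
  ((continuous_id.matrix_trace).comp_continuousOn (adjtr_cont2 C)).sub (dts_cont2 C)

theorem kp_cont2 (C : NullCone n) {a b : ℝ} (hU : ∀ x : E n, ‖x‖ = 1 → C.U x ≤ a) :
    ContinuousOn (fun p : ℝ × E n => kp C.H p.1 p.2) (Icc a b ×ˢ sphere (0 : E n) 1) := by
  have h1 : ContinuousOn (fun p : ℝ × E n =>
      ((Ms C.H p.1 p.2).adjugate * (Ms C.H p.1 p.2).adjugate).trace)
      (Icc a b ×ˢ sphere (0 : E n) 1) :=
    ((continuous_id.matrix_mul continuous_id).matrix_trace).comp_continuousOn (adjtr_cont2 C)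
  refine ((((sg_cont2 C).pow 2).sub h1).add ((dts_cont2 C).pow 2)).div (dts_cont2 C) ?_
  rintro ⟨s, x⟩ ⟨hs, hx⟩
  have hx1 : ‖x‖ = 1 := by simpa using hx
  exact (dts_pos C hx1 ((hU x hx1).trans hs.1)).ne'

end Vale.Agent.P366.KSN
end
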