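import Vale.Agent.P366.H896.X1c
import Vale.Agent.P366.H222.N.Int

/-! The Kerr-Schild metric `ksG lam V` of `Kerr/Defs` in every dimension: Christoffel symbols. -/

open MeasureTheory Metric Filter Topology Set
open scoped ContDiff ENNReal

noncomputable section
namespace Vale.Agent.P366.KSN

open Vale.Agent.P366 (pd E)
open Vale.Agent.P366.H353.N
open Vale.Agent.P366.H896
open Vale.Agent.P366.Kerr (NullCone IsSlice Region Psi pt sp nul ksG indG indK DECat
  FutureTimelike)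

variable {n : ℕ}

namespace X1

/-- the signs of the Minkowski metric -/
def sgn (a : Fin (n + 1)) : ℝ := if a = 0 then -1 else 1

lemma sgn0 : sgn (0 : Fin (n + 1)) = -1 := rfl
lemma sgns (i : Fin n) : sgn i.succ = 1 := by simp [sgn, Fin.succ_ne_zero]

lemma sp_add (p : E (n + 1)) (i : Fin n) (t : ℝ) :
    sp (p + t • EuclideanSpace.single i.succ (1 : ℝ)) = sp p + t • EuclideanSpace.single i 1 := by
  ext j
  simp [sp]

lemma sp_add0 (p : E (n + 1)) (t : ℝ) :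
    sp (p + t • EuclideanSpace.single (0 : Fin (n + 1)) (1 : ℝ)) = sp p := by
  ext j
  simp [sp]

lemma spd_succ (F : E n → ℝ) (p : E (n + 1)) (i : Fin n) :
    Stmt.pd i.succ (fun z => F (sp z)) p = Stmt.pd i F (sp p) := by
  show deriv (fun t : ℝ => F (sp (p + t • EuclideanSpace.single i.succ (1 : ℝ)))) 0 =
    deriv (fun t : ℝ => F (sp p + t • EuclideanSpace.single i (1 : ℝ))) 0
  congr 1
  funext t
  exact congrArg F (sp_add p i t)

lemma spd_zero (F : E n → ℝ) (p : E (n + 1)) : Stmt.pd (0 : Fin (n + 1)) (fun z => F (sp z)) p = 0 := by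
  show deriv (fun t : ℝ => F (sp (p + t • EuclideanSpace.single (0 : Fin (n + 1)) (1 : ℝ)))) 0 = 0
  have h1 : (fun t : ℝ => F (sp (p + t • EuclideanSpace.single (0 : Fin (n + 1)) (1 : ℝ)))) =
      fun _ => F (sp p) := by
    funext t
    exact congrArg F (sp_add0 p t)
  rw [h1, deriv_const]

lemma sp_contDiff {r : WithTop ℕ∞} : ContDiff ℝ r (sp : E (n + 1) → E n) := by
  rw [contDiff_euclidean]
  intro i
  exact (EuclideanSpace.proj (𝕜 := ℝ) i.succ).contDiff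

lemma sp_cont : Continuous (sp : E (n + 1) → E n) := (sp_contDiff (r := 0)).continuous

lemma nul_contDiffAt {r : WithTop ℕ∞} {lam : E n → ℝ} {p : E (n + 1)}
    (h : ContDiffAt ℝ r lam (sp p)) : ContDiffAt ℝ r (nul lam) p := by
  have h1 : ContDiffAt ℝ r (fun p : E (n + 1) => p 0) p :=
    (EuclideanSpace.proj (𝕜 := ℝ) (0 : Fin (n + 1))).contDiff.contDiffAt
  exact h1.add (h.comp p sp_contDiff.contDiffAt)

lemma spd_nul {lam : E n → ℝ} {p : E (n + 1)} (h : DifferentiableAt ℝ lam (sp p)) (a : Fin (n + 1)) :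
    Stmt.pd a (nul lam) p = (Fin.cons 1 fun i => pd i lam (sp p) : Fin (n + 1) → ℝ) a := by
  have h1 : DifferentiableAt ℝ (fun z : E (n + 1) => lam (sp z)) p :=
    h.comp p (sp_contDiff (r := 1)).contDiffAt.differentiableAt_one
  have h2 : T2.HP a (nul lam) ((if (0 : Fin (n + 1)) = a then 1 else 0) +
      Stmt.pd a (fun z => lam (sp z)) p) p :=
    (T2.HP.coord a 0 p).add (T2.HP.of_diff h1)
  rw [h2.pd]
  refine Fin.cases ?_ (fun i => ?_) a
  · rw [spd_zero]; simp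
  · rw [spd_succ, Bridge.pd_eq h]
    have : (0 : Fin (n + 1)) ≠ i.succ := (Fin.succ_ne_zero i).symm
    simp [this]

lemma nat_le_smooth (k : ℕ) : ((k : ℕ) : WithTop ℕ∞) ≤ ((⊤ : ℕ∞) : WithTop ℕ∞) :=
  WithTop.coe_le_coe.2 (le_top : (k : ℕ∞) ≤ ⊤)

/-- a neighbourhood on which the metric is of Kerr-Schild form -/
lemma ks0 {lam : E n → ℝ} {V : E (n + 1) → ℝ} {p : E (n + 1)} (hl : ContDiffAt ℝ ∞ lam (sp p))
    (hV : ContDiffAt ℝ ∞ V p) {P : E (n + 1) → Prop} (hP : ∀ᶠ z in 𝓝 p, P z) :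
    ∃ U, p ∈ U ∧ KS0 sgn (ksG lam V) (nul lam) V U ∧
      (∀ z ∈ U, ContDiffAt ℝ ((6 : ℕ) : WithTop ℕ∞) lam (sp z)) ∧ ∀ z ∈ U, P z := by
  have h1 : ∀ᶠ z in 𝓝 (sp p), ContDiffAt ℝ ((6 : ℕ) : WithTop ℕ∞) lam z :=
    (hl.of_le (nat_le_smooth 6)).eventually (by simp)
  have h2 : ∀ᶠ z in 𝓝 p, ContDiffAt ℝ ((6 : ℕ) : WithTop ℕ∞) lam (sp z) :=
    sp_cont.continuousAt.eventually h1
  have h3 : ∀ᶠ z in 𝓝 p, ContDiffAt ℝ ((6 : ℕ) : WithTop ℕ∞) V z :=
    (hV.of_le (nat_le_smooth 6)).eventually (by simp)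
  obtain ⟨U, hU, hUo, hpU⟩ := _root_.eventually_nhds_iff.1 ((h2.and h3).and hP)
  refine ⟨U, hpU, ⟨hUo, ?_, ?_, ?_, ?_⟩, fun z hz => (hU z hz).1.1, fun z hz => (hU z hz).2⟩
  · intro a; unfold sgn; split_ifs <;> norm_num
  · intro z hz; exact nul_contDiffAt (hU z hz).1.1
  · intro z hz; exact (hU z hz).1.2
  · intro z _ a b; unfold ksG sgn; rw [mul_assoc]

/-- second derivatives of `nul lam` -/
lemma spd2_nul {lam : E n → ℝ} {p : E (n + 1)} (h : ContDiffAt ℝ ∞ lam (sp p)) (a b : Fin (n + 1)) :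
    Stmt.pd a (Stmt.pd b (nul lam)) p =
      (Fin.cons (fun _ => 0) fun i =>
        (Fin.cons 0 fun j => H353.N.hs lam i j (sp p) : Fin (n + 1) → ℝ) : Fin (n + 1) → Fin (n + 1) → ℝ) a b := by
  have h1 : ∀ᶠ z in 𝓝 (sp p), DifferentiableAt ℝ lam z := by
    have h2 : ∀ᶠ z in 𝓝 (sp p), ContDiffAt ℝ ((1 : ℕ) : WithTop ℕ∞) lam z :=
      (h.of_le (nat_le_smooth 1)).eventually (by simp)
    exact h2.mono fun z hz => hz.differentiableAt (by simp)
  have h3 : ∀ᶠ z in 𝓝 p, DifferentiableAt ℝ lam (sp z) := sp_cont.continuousAt.eventually h1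
  refine Fin.cases ?_ (fun j => ?_) b
  · have h4 : Stmt.pd 0 (nul lam) =ᶠ[𝓝 p] fun _ => 1 := h3.mono fun z hz => spd_nul hz 0
    rw [pd_congrS h4 a]
    have h5 : Stmt.pd a (fun _ : E (n + 1) => (1 : ℝ)) p = 0 := (T2.HP.const a 1 p).pd
    rw [h5]
    refine Fin.cases rfl (fun i => rfl) a
  · have h4 : Stmt.pd j.succ (nul lam) =ᶠ[𝓝 p] fun z => pd j lam (sp z) :=
      h3.mono fun z hz => spd_nul hz j.succ
    rw [pd_congrS h4 a]
    refine Fin.cases ?_ (fun i => ?_) a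
    · exact spd_zero (pd j lam) p
    · rw [spd_succ (pd j lam) p i]
      have h6 : ContDiffAt ℝ ((1 : ℕ) : WithTop ℕ∞) (fderiv ℝ lam) (sp p) :=
        (h.of_le (nat_le_smooth 2)).fderiv_right
          (by norm_cast)
      have h7 : DifferentiableAt ℝ (pd j lam) (sp p) :=
        (h6.clm_apply contDiffAt_const).differentiableAt (by simp)
      rw [Bridge.pd_eq h7]
      rfl

lemma sgn_w (f : Fin n → ℝ) (a : Fin (n + 1)) :
    sgn a * (Fin.cons 1 f : Fin (n + 1) → ℝ) a = (Fin.cons (-1) f : Fin (n + 1) → ℝ) a := by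
  refine Fin.cases ?_ (fun i => ?_) a
  · rw [sgn0]; simp
  · rw [sgns]; simp

lemma sgn_dV (F : Fin (n + 1) → ℝ) (a : Fin (n + 1)) :
    sgn a * F a = (Fin.cons (- F 0) fun i : Fin n => F i.succ : Fin (n + 1) → ℝ) a := by
  refine Fin.cases ?_ (fun i => ?_) a
  · rw [sgn0]; simp
  · rw [sgns]; simp

/-- the gradient of `nul lam` is null -/
lemma null_of {lam : E n → ℝ} {p : E (n + 1)} (hl : DifferentiableAt ℝ lam (sp p))
    (hg : ∑ i, pd i lam (sp p) ^ 2 = 1) :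
    ∑ a, sgn a * (Stmt.pd a (nul lam) p * Stmt.pd a (nul lam) p) = 0 := by
  simp only [spd_nul hl]
  rw [Fin.sum_univ_succ, sgn0]
  simp only [sgns, Fin.cons_zero, Fin.cons_succ, one_mul, ← pow_two, hg]
  norm_num

end X1

open X1 in
/-- closed form of the Christoffel symbols of the Kerr-Schild metric -/
theorem chr_ksG {lam : E n → ℝ} {V : E (n + 1) → ℝ} {p : E (n + 1)} (hl : ContDiffAt ℝ ∞ lam (sp p))
    (hg : ∑ i, pd i lam (sp p) ^ 2 = 1)
    (hV : ContDiffAt ℝ ∞ V p) (a b c : Fin (n + 1)) :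
    let w : Fin (n + 1) → ℝ := Fin.cons 1 fun i => pd i lam (sp p)
    let k : Fin (n + 1) → ℝ := Fin.cons (-1) fun i => pd i lam (sp p)
    let h : Fin (n + 1) → Fin (n + 1) → ℝ := Fin.cons (fun _ => 0) fun i =>
      (Fin.cons 0 fun j => H353.N.hs lam i j (sp p) : Fin (n + 1) → ℝ)
    let dV : Fin (n + 1) → ℝ := fun a => pd a V p
    let uV : Fin (n + 1) → ℝ := Fin.cons (- pd 0 V p) fun i : Fin n => pd i.succ V p
    let kV : ℝ := ∑ a, k a * dV a
    Stmt.chr (ksG lam V) a b c p = (dV b * k a * w c + dV c * k a * w b - uV a * w b * w c) / 2 +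
      V p * kV * k a * w b * w c / 2 + V p * k a * h b c := by
  intro w k h dV uV kV
  obtain ⟨U, hpU, hK, -, -⟩ := ks0 hl hV (P := fun _ => True) (Eventually.of_forall fun _ => trivial)
  have hl1 : DifferentiableAt ℝ lam (sp p) :=
    (hl.of_le (nat_le_smooth 1)).differentiableAt (by simp)
  have hV1 : DifferentiableAt ℝ V p :=
    (hV.of_le (nat_le_smooth 1)).differentiableAt (by simp)
  have hw : ∀ a, Stmt.pd a (nul lam) p = w a := spd_nul hl1
  have hh : ∀ a b, Stmt.pd a (Stmt.pd b (nul lam)) p = h a b := spd2_nul hl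
  have hd : ∀ a, Stmt.pd a V p = dV a := fun a => Bridge.pd_eq hV1 a
  have hk : ∀ a, sgn a * w a = k a := sgn_w _
  have hu : ∀ a, sgn a * dV a = uV a := sgn_dV dV
  have hVk : Vk sgn (nul lam) V p = kV := by
    unfold Vk
    refine Finset.sum_congr rfl fun a _ => ?_
    rw [hw, hd, ← hk]; ring
  rw [hK.chr_eq hpU (null_of hl1 hg)]
  unfold Mt
  rw [hVk, hw, hw, hw, hh, hd, hd, hd, hk, hu]
  ring

end Vale.Agent.P366.KSN
end
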